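import Mathlib

/-!
P043 (discrete, `d ≥ 4`): blocks. A block is a group with two trivially meeting subgroups (the axes) that have
common transversals; over a product of blocks the one-fibre transversals force cosets of products of axes.
-/

namespace Vale.Agent.P043.Z4

/-- `T` contains exactly one point of every coset of `K`. -/
def Trans {G : Type*} [AddCommGroup G] (K : AddSubgroup G) (T : Set G) : Prop :=
  ∀ z, ∃! c, c ∈ T ∧ z - c ∈ K

/-- A block: two axes, a diagonal, and enough common transversals. -/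
structure Axes (G : Type*) [AddCommGroup G] where
  /-- The two axes. -/
  K : Bool → AddSubgroup G
  disj : ∀ x, x ∈ K false → x ∈ K true → x = 0
  /-- A non-zero vector on each axis. -/
  e : Bool → G
  e_mem : ∀ b, e b ∈ K b
  e_ne : ∀ b, e b ≠ 0
  /-- The diagonal, a common transversal. -/
  diag : Set G
  diag_trans : ∀ b, Trans (K b) diag
  diag_zero : 0 ∈ diag
  diag_sum : e false + e true ∈ diag
  sep : ∀ d, d ∉ K false → d ∉ K true → ∃ C : Set G, 0 ∈ C ∧ d ∈ C ∧ ∀ b, Trans (K b) C

namespace Axes

variable {G : Type*} [AddCommGroup G] (B : Axes G)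

lemma eq_zero_of_mem {b c : Bool} (h : b ≠ c) {x : G} (hb : x ∈ B.K b) (hc : x ∈ B.K c) : x = 0 := by
  cases b <;> cases c <;> first | exact absurd rfl h | exact B.disj x hb hc | exact B.disj x hc hb

lemma e_not_mem {b c : Bool} (h : b ≠ c) : B.e b ∉ B.K c := fun hc =>
  B.e_ne b (B.eq_zero_of_mem h (B.e_mem b) hc)

/-- The common non-zero point of the diagonal used for cubes. -/
def top : G := B.e false + B.e true

lemma top_not_mem (b : Bool) : B.top ∉ B.K b := by
  intro h
  cases b
  · exact B.e_not_mem (show true ≠ false by decide) (by simpa [top] using sub_mem h (B.e_mem false))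
  · exact B.e_not_mem (show false ≠ true by decide) (by simpa [top] using sub_mem h (B.e_mem true))

lemma top_ne : B.top ≠ 0 := fun h => B.top_not_mem false (h ▸ zero_mem _)

/-- Two points of different axes differ off both axes. -/
lemma sub_not_mem {x y : G} (hx : x ∈ B.K false) (hy : y ∈ B.K true) (hx0 : x ≠ 0) (hy0 : y ≠ 0) :
    ∀ b, y - x ∉ B.K b := by
  intro b h
  cases b
  · exact hy0 (B.disj y (by simpa using add_mem h hx) hy)
  · exact hx0 (B.disj x hx (by simpa using sub_mem hy h))

/-- The point of the cube with first bit `p` and second bit `q`. -/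
noncomputable def pt (p q : Bool) : G :=
  (if p then B.e true else 0) + (if q then B.e false else 0)

/-- The diagonal point of a bit. -/
noncomputable def dbit (p : Bool) : G := if p then B.top else 0

lemma dbit_mem (p : Bool) : B.dbit p ∈ B.diag := by
  cases p
  · simpa [dbit] using B.diag_zero
  · simpa [dbit, top] using B.diag_sum

lemma dbit_inj {p q : Bool} (h : B.dbit p = B.dbit q) : p = q := by
  cases p <;> cases q <;> first | rfl | exact absurd h (by simp [dbit, B.top_ne, B.top_ne.symm])

/-- Along axis `b` a cube point reads one of its bits. -/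
lemma pt_sub_dbit (b p q : Bool) :
    B.pt p q - B.dbit (if b then q else p) ∈ B.K b := by
  cases b <;> cases p <;> cases q <;>
    simp [pt, dbit, top, B.e_mem false, B.e_mem true, add_comm (B.e true)]

end Axes

section Product

variable {ι : Type*} {G : ι → Type*} [∀ i, AddCommGroup (G i)] (B : ∀ i, Axes (G i))

/-- The product of the chosen axes. -/
def lines (σ : ι → Bool) : AddSubgroup (∀ i, G i) :=
  AddSubgroup.pi Set.univ fun i => (B i).K (σ i)

lemma mem_lines {σ : ι → Bool} {x : ∀ i, G i} : x ∈ lines B σ ↔ ∀ i, x i ∈ (B i).K (σ i) := by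
  simp [lines, AddSubgroup.mem_pi]

/-- The product of the diagonals. -/
def diags : Set (∀ i, G i) := {f | ∀ i, f i ∈ (B i).diag}

lemma zero_mem_diags : (0 : ∀ i, G i) ∈ diags B := fun i => (B i).diag_zero

lemma trans_diags (σ : ι → Bool) : Trans (lines B σ) (diags B) := by
  intro z
  choose c hc hu using fun i => (B i).diag_trans (σ i) (z i)
  refine ⟨c, ⟨fun i => (hc i).1, (mem_lines B).2 fun i => (hc i).2⟩, ?_⟩
  rintro f ⟨hf, hz⟩
  funext i
  exact hu i _ ⟨hf i, (mem_lines B).1 hz i⟩

lemma eq_of_mem_diags {σ : ι → Bool} {f g : ∀ i, G i} (hf : f ∈ diags B) (hg : g ∈ diags B)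
    (h : f - g ∈ lines B σ) : f = g :=
  (trans_diags B σ f).unique ⟨hf, by simp⟩ ⟨hg, h⟩

/-- A common transversal through `0` and any given point with a coordinate off the axes. -/
lemma exists_sep [DecidableEq ι] (d : ∀ i, G i) {k : ι} (hk : ∀ b, d k ∉ (B k).K b) :
    ∃ T : Set (∀ i, G i), 0 ∈ T ∧ d ∈ T ∧ ∀ σ, Trans (lines B σ) T := by
  classical
  obtain ⟨C, h0, hd, hC⟩ := (B k).sep (d k) (hk false) (hk true)
  let sh : G k → ∀ i, G i := fun c i => if c = d k then d i else 0
  refine ⟨{f | f k ∈ C ∧ ∀ i, i ≠ k → f i - sh (f k) i ∈ (B i).diag}, ?_, ?_, ?_⟩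
  · have hne : (0 : G k) ≠ d k := fun h => hk false (h ▸ zero_mem _)
    exact ⟨h0, fun i _ => by simp [sh, hne, (B i).diag_zero]⟩
  · exact ⟨hd, fun i _ => by simp [sh, (B i).diag_zero]⟩
  · intro σ z
    obtain ⟨ck, ⟨hckC, hckz⟩, hcu⟩ := hC (σ k) (z k)
    choose c hc hu using fun i => (B i).diag_trans (σ i) (z i - sh ck i)
    refine ⟨fun i => if h : i = k then h ▸ ck else c i + sh ck i, ⟨⟨by simp [hckC], ?_⟩, ?_⟩, ?_⟩
    · intro i hi
      simp [hi, (hc i).1]
    · refine (mem_lines B).2 fun i => ?_
      by_cases hi : i = k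
      · subst hi
        simp [hckz]
      · have : z i - (c i + sh ck i) = z i - sh ck i - c i := by abel
        simp [hi, this, (hc i).2]
    · rintro f ⟨⟨hfC, hf⟩, hz⟩
      have hfk : f k = ck := hcu _ ⟨hfC, (mem_lines B).1 hz k⟩
      funext i
      by_cases hi : i = k
      · subst hi
        simp [hfk]
      · have h1 : z i - sh ck i - (f i - sh ck i) ∈ (B i).K (σ i) := by
          simpa using (mem_lines B).1 hz i
        have := hu i (f i - sh ck i) ⟨hfk ▸ hf i hi, h1⟩
        simp [hi, ← this]

/-- One-fibre tilings by the common transversals are cosets of products of axes. -/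
lemma eq_coset [DecidableEq ι] (X : Set (∀ i, G i))
    (hX : ∀ T : Set (∀ i, G i), 0 ∈ T → (∀ σ, Trans (lines B σ) T) →
      ∀ z, ∃! f, f ∈ T ∧ z - f ∈ X) :
    ∃ σ c, ∀ y, y ∈ X ↔ y - c ∈ lines B σ := by
  classical
  obtain ⟨f₀, ⟨-, hf₀⟩, -⟩ := hX _ (zero_mem_diags B) (trans_diags B) 0
  set c := 0 - f₀ with hc
  have axis : ∀ x ∈ X, ∀ y ∈ X, ∀ i, ∃ b, x i - y i ∈ (B i).K b := by
    intro x hx y hy i
    by_contra hne
    push Not at hne
    obtain ⟨T, h0, hd, hT⟩ := exists_sep B (x - y) (k := i) (by simpa using hne)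
    have h := (hX T h0 hT x).unique ⟨h0, by simpa using hx⟩ ⟨hd, by simpa using hy⟩
    exact hne false (by rw [show x i - y i = 0 from (congrFun h i).symm]; exact zero_mem _)
  let σ : ι → Bool := fun i => decide (∃ x ∈ X, x i - c i ∉ (B i).K false)
  have sub : ∀ x ∈ X, x - c ∈ lines B σ := by
    intro x hx
    refine (mem_lines B).2 fun i => ?_
    by_cases h : ∃ z ∈ X, z i - c i ∉ (B i).K false
    · simp only [σ, h, decide_true, Pi.sub_apply]
      by_contra hxt
      obtain ⟨b, hb⟩ := axis x hx c hf₀ i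
      have hxf : x i - c i ∈ (B i).K false := by cases b <;> [exact hb; exact absurd hb hxt]
      obtain ⟨z, hz, hzf⟩ := h
      obtain ⟨b', hb'⟩ := axis z hz c hf₀ i
      have hzt : z i - c i ∈ (B i).K true := by cases b' <;> [exact absurd hb' hzf; exact hb']
      obtain ⟨b'', hb''⟩ := axis z hz x hx i
      refine (B i).sub_not_mem hxf hzt (fun h0 => hxt (h0 ▸ zero_mem _))
        (fun h0 => hzf (h0 ▸ zero_mem _)) b'' (by simpa using hb'')
    · simp only [σ, h, decide_false, Pi.sub_apply]
      by_contra hxf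
      exact h ⟨x, hx, hxf⟩
  refine ⟨σ, c, fun y => ⟨sub y, fun hy => ?_⟩⟩
  obtain ⟨f, ⟨hfT, hfX⟩, -⟩ := hX _ (zero_mem_diags B) (trans_diags B) y
  have hmem : f ∈ lines B σ := by
    have := sub_mem hy (sub _ hfX)
    simpa using this
  have hf0 : f = 0 := eq_of_mem_diags B (σ := σ) hfT (zero_mem_diags B) (by simpa using hmem)
  simpa [hf0] using hfX

lemma lines_injective {σ τ : ι → Bool} (h : lines B σ = lines B τ) : σ = τ := by
  classical
  funext i
  by_contra hne
  have : Pi.single i ((B i).e (σ i)) ∈ lines B σ := (mem_lines B).2 fun j => by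
    by_cases hj : j = i
    · subst hj; simp [(B j).e_mem]
    · simp [hj]
  rw [h] at this
  exact (B i).e_not_mem hne (by simpa using (mem_lines B).1 this i)

end Product

end Vale.Agent.P043.Z4
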