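import Vale.Agent.P043.Z4.Block

/-!
P043 (discrete, `d ≥ 4`): for one choice of axes a set that is a transversal for every other choice and collides
for this one.
-/

namespace Vale.Agent.P043.Z4

variable {ι : Type*} {G : ι → Type*} [∀ i, AddCommGroup (G i)] (B : ∀ i, Axes (G i))

/-- A cyclic successor: a Boolean vector constant from each point to its successor, except possibly at a point
where it vanishes, vanishes everywhere. -/
lemma exists_cycle [Finite ι] [Nonempty ι] :
    ∃ s : ι → ι, ∀ (δ : ι → Bool) (j : ι), δ j = false →
      (∀ i, δ i = δ (s i) ∨ δ i = false) → ∀ i, δ i = false := by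
  classical
  have := Fintype.ofFinite ι
  have : NeZero (Fintype.card ι) := ⟨Fintype.card_ne_zero⟩
  let e : ι ≃ ZMod (Fintype.card ι) := (Fintype.equivFin ι).trans (ZMod.finEquiv _).toEquiv
  refine ⟨fun i => e.symm (e i + 1), fun δ j hj hs i => ?_⟩
  have key : ∀ k : ℕ, δ (e.symm (e j - k)) = false := by
    intro k
    induction k with
    | zero => simpa using hj
    | succ k ih =>
      rcases hs (e.symm (e j - (k + 1 : ℕ))) with h | h
      · rw [h]
        simp only [Equiv.apply_symm_apply]
        rwa [Nat.cast_succ, sub_add_eq_sub_sub, sub_add_cancel]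
      · exact h
  have := key (e j - e i).val
  simpa using this

/-- Whether all coordinates are bit points. -/
def InCube (f : ∀ i, G i) : Prop := ∀ i, ∃ p, f i = (B i).dbit p

open Classical in
/-- The bit of a coordinate. -/
noncomputable def bitAt (f : ∀ i, G i) (i : ι) : Bool := decide (f i = (B i).top)

lemma eq_dbit {f : ∀ i, G i} (h : InCube B f) (i : ι) : f i = (B i).dbit (bitAt B f i) := by
  classical
  obtain ⟨p, hp⟩ := h i
  cases p
  · have : f i ≠ (B i).top := by
      intro e
      exact (B i).top_ne (by rw [← e, hp]; rfl)
    simp [bitAt, this]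
    exact hp
  · have : f i = (B i).top := by rw [hp]; rfl
    simp [bitAt, hp, Axes.dbit]

variable (st : ι → Bool) (s : ι → ι)

/-- The bit shown along the forbidden axis. -/
noncomputable def mix (f : ∀ i, G i) (i : ι) : Bool := xor (bitAt B f i) (bitAt B f (s i))

open Classical in
/-- The cube map. -/
noncomputable def out (f : ∀ i, G i) : ∀ i, G i :=
  if InCube B f then fun i =>
    if st i then (B i).pt (bitAt B f i) (mix B s f i) else (B i).pt (mix B s f i) (bitAt B f i)
  else f

open Classical in
/-- What the cube map shows along the axes `σ`. -/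
noncomputable def shown (σ : ι → Bool) (f : ∀ i, G i) : ∀ i, G i :=
  if InCube B f then fun i =>
    (B i).dbit (if σ i = st i then mix B s f i else bitAt B f i)
  else f

lemma out_sub_shown (σ : ι → Bool) (f : ∀ i, G i) :
    out B st s f - shown B st s σ f ∈ lines B σ := by
  classical
  refine (mem_lines B).2 fun i => ?_
  by_cases h : InCube B f
  · simp only [out, shown, if_pos h, Pi.sub_apply]
    rcases Bool.eq_false_or_eq_true (σ i) with hσ | hσ <;>
      rcases Bool.eq_false_or_eq_true (st i) with ht | ht <;>
      simp only [hσ, ht] <;>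
      first
        | simpa using (B i).pt_sub_dbit true (bitAt B f i) (mix B s f i)
        | simpa using (B i).pt_sub_dbit true (mix B s f i) (bitAt B f i)
        | simpa using (B i).pt_sub_dbit false (bitAt B f i) (mix B s f i)
        | simpa using (B i).pt_sub_dbit false (mix B s f i) (bitAt B f i)
  · simp [out, shown, h]

lemma shown_mem (σ : ι → Bool) {f : ∀ i, G i} (hf : f ∈ diags B) : shown B st s σ f ∈ diags B := by
  classical
  by_cases h : InCube B f
  · simp only [shown, if_pos h]
    exact fun i => (B i).dbit_mem _
  · simpa [shown, h] using hf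

lemma shown_injective (hs : ∀ (δ : ι → Bool) (j : ι), δ j = false →
      (∀ i, δ i = δ (s i) ∨ δ i = false) → ∀ i, δ i = false)
    {σ : ι → Bool} {j : ι} (hj : σ j ≠ st j) : Function.Injective (shown B st s σ) := by
  classical
  intro f g h
  by_cases hf : InCube B f <;> by_cases hg : InCube B g
  · simp only [shown, if_pos hf, if_pos hg] at h
    have hb : ∀ i, (if σ i = st i then mix B s f i else bitAt B f i) =
        (if σ i = st i then mix B s g i else bitAt B g i) :=
      fun i => (B i).dbit_inj (congrFun h i)
    have h0 := hs (fun i => xor (bitAt B f i) (bitAt B g i)) j (by have := hb j; simp [hj] at this; simp [this])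
      (fun i => by
        by_cases hi : σ i = st i
        · left
          have := hb i
          simp only [hi, if_true, mix] at this
          revert this
          cases bitAt B f i <;> cases bitAt B g i <;> cases bitAt B f (s i) <;>
            cases bitAt B g (s i) <;> simp
        · right
          have := hb i
          simp [hi] at this
          simp [this])
    funext i
    have : bitAt B f i = bitAt B g i := by simpa using h0 i
    rw [eq_dbit B hf i, eq_dbit B hg i, this]
  · exfalso
    simp only [shown, if_pos hf, if_neg hg] at h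
    exact hg fun i => ⟨_, (congrFun h i).symm⟩
  · exfalso
    simp only [shown, if_neg hf, if_pos hg] at h
    exact hf fun i => ⟨_, congrFun h i⟩
  · simpa [shown, hf, hg] using h

/-- For each choice of axes: a transversal of all other choices with two points in one coset of this one. -/
lemma exists_cube [Finite ι] [Nonempty ι] [∀ i, Finite (G i)] (st : ι → Bool) :
    ∃ T : Set (∀ i, G i), 0 ∈ T ∧ (∃ f ∈ T, f ≠ 0 ∧ f ∈ lines B st) ∧
      ∀ σ, σ ≠ st → Trans (lines B σ) T := by
  classical
  obtain ⟨s, hs⟩ := exists_cycle (ι := ι)
  refine ⟨out B st s '' diags B, ?_, ?_, ?_⟩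
  · refine ⟨0, zero_mem_diags B, ?_⟩
    have h0 : InCube B (0 : ∀ i, G i) := fun i => ⟨false, by simp [Axes.dbit]⟩
    have hb : ∀ i, bitAt B (0 : ∀ i, G i) i = false := fun i => by
      simp [bitAt, (B i).top_ne.symm]
    funext i
    simp [out, h0, hb, mix, Axes.pt]
  · let f : ∀ i, G i := fun i => (B i).top
    have h1 : InCube B f := fun i => ⟨true, by simp [Axes.dbit, f]⟩
    have hb : ∀ i, bitAt B f i = true := fun i => by simp [bitAt, f]
    refine ⟨out B st s f, ⟨f, fun i => (B i).dbit_mem true, rfl⟩, ?_, ?_⟩
    · intro h
      have i : ι := Classical.arbitrary ι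
      have := congrFun h i
      simp only [out, if_pos h1, hb, mix, Bool.xor_self, Pi.zero_apply] at this
      rcases Bool.eq_false_or_eq_true (st i) with ht | ht <;> simp [ht, Axes.pt, (B i).e_ne] at this
    · have hz : shown B st s st f = 0 := by
        funext i
        simp [shown, h1, hb, mix, Axes.dbit]
      simpa [hz] using out_sub_shown B st s st f
  · intro σ hσ z
    obtain ⟨j, hj⟩ := Function.ne_iff.1 hσ
    have hinj := shown_injective B st s hs hj
    let R : diags B → diags B := fun f => ⟨shown B st s σ f.1, shown_mem B st s σ f.2⟩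
    have hR : Function.Surjective R := Finite.surjective_of_injective
      fun f g h => Subtype.ext (hinj (congrArg Subtype.val h))
    obtain ⟨g, ⟨hg, hgz⟩, -⟩ := trans_diags B σ z
    obtain ⟨f, hf⟩ := hR ⟨g, hg⟩
    have hfg : shown B st s σ f.1 = g := congrArg Subtype.val hf
    refine ⟨out B st s f.1, ⟨⟨f.1, f.2, rfl⟩, ?_⟩, ?_⟩
    · have := sub_mem hgz (out_sub_shown B st s σ f.1)
      rwa [hfg, sub_sub, add_sub_cancel] at this
    · rintro _ ⟨⟨f', hf', rfl⟩, hz⟩
      have h1 : shown B st s σ f' = g := by
        refine eq_of_mem_diags B (σ := σ) (shown_mem B st s σ hf') hg ?_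
        have := sub_mem hgz (add_mem hz (out_sub_shown B st s σ f'))
        simpa using this
      rw [hinj (h1.trans hfg.symm)]

end Vale.Agent.P043.Z4
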