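import Mathlib

/-!
P043, discrete form in `ℤ^d`, `d ≥ 4`: shared definitions and interfaces.

* `Tiles A F`: every point has exactly one representation `a + f`.
* `TransferSpec`: a finite system of tiling equations in `ℤ² × G` (`G` a quotient of `ℤ²`) with a solution and
  no solution periodic in the `ℤ²` directions gives an aperiodic tile in every `ℤ^d`, `d ≥ 4`.
* `NoPeriodicColouring`, `ColouringExists`: the base-8 digit puzzle.
-/

namespace Vale.Agent.P043.Z4

/-- Every point of `V` is uniquely `a + f` with `a ∈ A`, `f ∈ F`. -/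
def Tiles {V : Type*} [AddCommGroup V] (A : Set V) (F : Finset V) : Prop :=
  ∀ x, ∃! f, f ∈ F ∧ x - f ∈ A

/-- `F` tiles `ℤ^d`, and no tiling by `F` is invariant under a subgroup of finite index. -/
def IsAperiodicTile {d : ℕ} (F : Finset (Fin d → ℤ)) : Prop :=
  (∃ A, Tiles A F) ∧ ∀ A, Tiles A F →
    ¬∃ H : AddSubgroup (Fin d → ℤ), H.FiniteIndex ∧ ∀ a, ∀ h ∈ H, a + h ∈ A ↔ a ∈ A

/-- Transfer from systems in `ℤ² × G` to one tile in `ℤ^d`. -/
def TransferSpec : Prop :=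
  ∀ (G : Type) [AddCommGroup G] [Finite G] (π : ℤ × ℤ →+ G), Function.Surjective π →
  ∀ (ι : Type) [Finite ι] [Nonempty ι] (F : ι → Finset ((ℤ × ℤ) × G)),
    (∃ A, ∀ i, Tiles A (F i)) →
    (∀ A, (∀ i, Tiles A (F i)) →
      ¬∃ P : ℕ, 0 < P ∧ ∀ a : (ℤ × ℤ) × G, ∀ h : ℤ × ℤ, (a.1 + P • h, a.2) ∈ A ↔ a ∈ A) →
    ∀ d, 4 ≤ d → ∃ T : Finset (Fin d → ℤ), IsAperiodicTile T

/-- The last non-zero base-8 digit of `z` (and `0` for `z = 0`). -/
def dig (z : ℤ) : ZMod 8 := ((z / 8 ^ padicValInt 8 z : ℤ) : ZMod 8)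

/-- `g` shows, away from the zeros of an affine function, its last non-zero base-8 digit. -/
def Pat (g : Fin 64 → ZMod 8) : Prop :=
  (∀ n, g n ≠ 0) ∧ ∃ a b : ℤ, (a ≠ 0 ∨ b ≠ 0) ∧
    ∀ n : Fin 64, a * (n : ℕ) + b ≠ 0 → g n = dig (a * (n : ℕ) + b)

/-- The second binary digit of a residue mod 8. -/
def bit1 (a : ZMod 8) : Bool := decide (a.val / 2 % 2 = 1)

/-- The pointwise rule at one site. -/
def Allowed (m : Bool) (u v a : ZMod 8) (f : Fin 64 → ZMod 8) : Prop :=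
  v = u + a ∧ m = bit1 a ∧
    (∀ n : Fin 64, u + (n : ℕ) * a ≠ 0 → f n = u + (n : ℕ) * a) ∧ Pat f

/-- All colours along their lines, all sites allowed. -/
structure IsColouring (m : ℤ × ℤ → Bool) (u v a : ℤ × ℤ → ZMod 8)
    (f : Fin 64 → ℤ × ℤ → ZMod 8) : Prop where
  inv_u : ∀ x, u (x + (0, 1)) = u x
  inv_v : ∀ x, v (x + (1, -1)) = v x
  inv_a : ∀ x, a (x + (1, 0)) = a x
  inv_f : ∀ (n : Fin 64) x, f n (x + (((n : ℕ) : ℤ), -1)) = f n x
  allowed : ∀ x, Allowed (m x) (u x) (v x) (a x) fun n => f n x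

/-- The puzzle: a marker flipping under every vertical step of two forbids a horizontal period of the colours. -/
def NoPeriodicColouring : Prop :=
  ∀ m u v a f, IsColouring m u v a f → (∀ x : ℤ × ℤ, m x ≠ m (x - (0, 2))) →
    ¬∃ P : ℕ, 0 < P ∧ ∀ (n : Fin 64) (x : ℤ × ℤ), f n (x + ((P : ℤ), 0)) = f n x

/-- The puzzle has a solution whose marker is the second binary digit of the second coordinate. -/
def ColouringExists : Prop :=
  ∃ u v a f, IsColouring (fun x : ℤ × ℤ => bit1 (x.2 : ZMod 8)) u v a f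

end Vale.Agent.P043.Z4
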