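import Vale.Agent.P043.Z4.Block

/-!
P043 (discrete, `d ≥ 4`): the two kinds of blocks, and the window gadget on `ℤ/8 × ℤ/2` that makes the choice of
axis change under every step of two.
-/

namespace Vale.Agent.P043.Z4

/-- The axes of `(ℤ/p)²`. -/
def planeK (p : ℕ) (b : Bool) : AddSubgroup (ZMod p × ZMod p) :=
  bif b then (AddMonoidHom.fst (ZMod p) (ZMod p)).ker else (AddMonoidHom.snd (ZMod p) (ZMod p)).ker

lemma mem_planeK {p : ℕ} {b : Bool} {x : ZMod p × ZMod p} :
    x ∈ planeK p b ↔ (bif b then x.1 else x.2) = 0 := by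
  cases b <;> exact Iff.rfl

/-- The block `(ℤ/p)²` with the coordinate axes. -/
noncomputable def planeAxes (p : ℕ) [Fact p.Prime] : Axes (ZMod p × ZMod p) where
  K := planeK p
  disj x h1 h2 := by
    simp only [mem_planeK, cond_false, cond_true] at h1 h2
    exact Prod.ext h2 h1
  e b := bif b then (0, 1) else (1, 0)
  e_mem b := by cases b <;> simp [mem_planeK]
  e_ne b := by cases b <;> simp
  diag := {c | c.1 = c.2}
  diag_trans b z := by
    cases b
    · refine ⟨(z.2, z.2), ⟨rfl, by simp [mem_planeK]⟩, ?_⟩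
      rintro ⟨c1, c2⟩ ⟨h1, h2⟩
      simp [mem_planeK, sub_eq_zero] at h1 h2
      simp [h1, h2]
    · refine ⟨(z.1, z.1), ⟨rfl, by simp [mem_planeK]⟩, ?_⟩
      rintro ⟨c1, c2⟩ ⟨h1, h2⟩
      simp [mem_planeK, sub_eq_zero] at h1 h2
      simp [← h1, h2]
  diag_zero := rfl
  diag_sum := by simp
  sep := by
    rintro ⟨a, b⟩ h0 h1
    simp only [mem_planeK, cond_false, cond_true] at h0 h1
    refine ⟨{c | ∃ t : ZMod p, c = (t * a, t * b)}, ⟨0, by simp; rfl⟩, ⟨1, by simp⟩, fun s z => ?_⟩
    cases s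
    · refine ⟨(z.2 / b * a, z.2 / b * b), ⟨⟨_, rfl⟩, by simp [mem_planeK, h0]⟩, ?_⟩
      rintro _ ⟨⟨t, rfl⟩, h⟩
      simp [mem_planeK, sub_eq_zero] at h
      simp [h, h0]
    · refine ⟨(z.1 / a * a, z.1 / a * b), ⟨⟨_, rfl⟩, by simp [mem_planeK, h1]⟩, ?_⟩
      rintro _ ⟨⟨t, rfl⟩, h⟩
      simp [mem_planeK, sub_eq_zero] at h
      simp [h, h1]

/-- Two different axes of the plane block meet. -/
lemma plane_cross (p : ℕ) [Fact p.Prime] {a b : Bool} (h : a ≠ b) (z z' : ZMod p × ZMod p) :
    ∃ w, w - z ∈ (planeAxes p).K a ∧ w - z' ∈ (planeAxes p).K b := by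
  cases a <;> cases b
  · exact absurd rfl h
  · exact ⟨(z'.1, z.2), by simp [planeAxes, mem_planeK], by simp [planeAxes, mem_planeK]⟩
  · exact ⟨(z.1, z'.2), by simp [planeAxes, mem_planeK], by simp [planeAxes, mem_planeK]⟩
  · exact absurd rfl h

/-- The gadget group. -/
abbrev GG : Type := ZMod 8 × ZMod 2

/-- Membership in the axes of the gadget. -/
def inK (b : Bool) (x : GG) : Bool :=
  if b then (decide (x.2 = 0) && decide (x.1 + x.1 = 0)) else decide (x.1 = 0)

/-- The axes of the gadget. -/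
def gadgetK (b : Bool) : AddSubgroup GG where
  carrier := {x | inK b x = true}
  add_mem' := by
    intro x y
    change inK b x = true → inK b y = true → inK b (x + y) = true
    revert b x y
    decide +kernel
  zero_mem' := by
    change inK b 0 = true
    revert b
    decide +kernel
  neg_mem' := by
    intro x
    change inK b x = true → inK b (-x) = true
    revert b x
    decide +kernel

lemma mem_gadgetK {b : Bool} {x : GG} : x ∈ gadgetK b ↔ inK b x = true := Iff.rfl

/-- The second coordinate of a transversal: the diagonal, shifted on one class mod 4. -/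
def sepGraph (d : GG) (k : ZMod 8) : ZMod 2 :=
  (if 4 ≤ k.val then 1 else 0) +
    if k.val % 4 = d.1.val % 4 then d.2 - (if 4 ≤ d.1.val then 1 else 0) else 0

/-- Whether the graph meets each coset of an axis exactly once. -/
lemma sepGraph_trans : ∀ (d : GG) (b : Bool) (z : GG),
    ∃ k : ZMod 8, inK b (z - (k, sepGraph d k)) = true ∧
      ∀ k', inK b (z - (k', sepGraph d k')) = true → k' = k := by
  decide +kernel

lemma trans_sepGraph (d : GG) (b : Bool) :
    Trans (gadgetK b) {c : GG | c.2 = sepGraph d c.1} := by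
  intro z
  obtain ⟨k, hk, hu⟩ := sepGraph_trans d b z
  refine ⟨(k, sepGraph d k), ⟨rfl, hk⟩, ?_⟩
  rintro ⟨k', s⟩ ⟨hs, hz⟩
  simp only [Set.mem_ofPred_eq] at hs
  subst hs
  rw [hu k' hz]

/-- The gadget block. -/
def gadgetAxes : Axes GG where
  K := gadgetK
  disj := by simp only [mem_gadgetK]; decide +kernel
  e b := if b then (4, 0) else (0, 1)
  e_mem := by simp only [mem_gadgetK]; decide +kernel
  e_ne := by decide +kernel
  diag := {c | c.2 = sepGraph 0 c.1}
  diag_trans := trans_sepGraph 0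
  diag_zero := by show (0 : GG).2 = sepGraph 0 0; decide +kernel
  diag_sum := by show ((0, 1) + (4, 0) : GG).2 = sepGraph 0 ((0, 1) + (4, 0) : GG).1; decide +kernel
  sep d h0 h1 := by
    have key : ∀ d : GG, inK false d = false → inK true d = false →
        (0 : GG).2 = sepGraph d 0 ∧ d.2 = sepGraph d d.1 := by decide +kernel
    have := key d (by simpa [mem_gadgetK] using h0) (by simpa [mem_gadgetK] using h1)
    exact ⟨{c | c.2 = sepGraph d c.1}, this.1, this.2, trans_sepGraph d⟩

/-- The three window sets: `(step, element)`. -/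
def winSet : Fin 3 → List (Fin 4 × GG)
  | 0 => [(0, (0, 0)), (0, (4, 1)), (1, (1, 0)), (1, (5, 1)), (2, (2, 0)), (2, (6, 1)), (3, (3, 1)), (3, (7, 0))]
  | 1 => [(0, (0, 0)), (0, (2, 0)), (1, (4, 0)), (1, (6, 0)), (2, (0, 0)), (2, (2, 0)), (3, (4, 0)), (3, (6, 0))]
  | 2 => [(0, (0, 0)), (0, (2, 1)), (1, (4, 1)), (1, (6, 0)), (2, (0, 0)), (2, (2, 1)), (3, (4, 1)), (3, (6, 0))]

/-- Axis of the intended solution, by height mod 4. -/
def roleAxis (r : Fin 4) : Bool := decide (2 ≤ r.val)

/-- Offset of the intended solution, by height mod 4. -/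
def roleBase : Fin 4 → GG
  | 0 => (1, 1)
  | 1 => (1, 1)
  | 2 => (0, 1)
  | 3 => (2, 0)

/-- The intended roles are tiled exactly by each window set. -/
lemma roles_exact : ∀ (w : Fin 3) (r : Fin 4) (z : GG),
    ((winSet w).filter fun q => inK (roleAxis (r - q.1)) (z - q.2 - roleBase (r - q.1))).length = 1 := by
  decide +kernel

/-- `a` and `b` are congruent modulo the sum of two axes. -/
def nearK (m m' : Bool) (x : GG) : Bool :=
  [(0, 0), if m then (4, 0) else (0, 1)].any fun k => inK m' (x - k)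

/-- Sites at steps `h, h'` with axes `m, m'` and offsets `c, c'` do not overlap in any window set. -/
def fits (h h' : Fin 4) (m m' : Bool) (c c' : GG) : Bool :=
  [(0 : Fin 3), 1, 2].all fun w =>
    (winSet w).all fun q => (winSet w).all fun q' =>
      if q.1 = h ∧ q'.1 = h' ∧ q ≠ q' then !(nearK m m' (c + q.2 - (c' + q'.2))) else true

/-- Representatives of the cosets of an axis. -/
def reps (m : Bool) : List GG :=
  if m then [(0, 0), (1, 0), (2, 0), (3, 0), (0, 1), (1, 1), (2, 1), (3, 1)]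
  else [(0, 0), (1, 0), (2, 0), (3, 0), (4, 0), (5, 0), (6, 0), (7, 0)]

/-- No window of four with equal axes at steps `0, 2` fits. -/
lemma no_window : ∀ m m1 m3 : Bool,
    ((reps m1).all fun c1 => !(fits 0 1 m m1 0 c1) ||
      (reps m).all fun c2 => !(fits 0 2 m m 0 c2 && fits 1 2 m1 m c1 c2) ||
        (reps m3).all fun c3 =>
          !(fits 0 3 m m3 0 c3 && fits 1 3 m1 m3 c1 c3 && fits 2 3 m m3 c2 c3)) = true := by
  decide +kernel

end Vale.Agent.P043.Z4
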