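import Vale.Agent.P043.Z4.System

/-!
P043 (discrete, `d ≥ 4`): the puzzle, encoded by Booleans, together with the transfer gives aperiodic tiles.
-/

namespace Vale.Agent.P043.Z4.Glue

open Sys

/-- The colours: 64 digit colours and `u, v, a`. -/
abbrev Col : Type := Fin 64 ⊕ Fin 3

/-- One Boolean for each colour and value. -/
abbrev Bit : Type := Col × ZMod 8

/-- An odd prime for each Boolean, all different. -/
noncomputable def pr (i : Bit) : ℕ := Nat.nth Nat.Prime ((Fintype.equivFin Bit i).val + 1)

instance (i : Bit) : Fact (pr i).Prime :=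
  ⟨Nat.nth_mem_of_infinite Nat.infinite_setOfPred_prime _⟩

lemma pr_injective : Function.Injective pr := by
  intro i j h
  have := (Nat.nth_strictMono Nat.infinite_setOfPred_prime).injective h
  exact (Fintype.equivFin Bit).injective (Fin.ext (by omega))

lemma pr_ne_two (i : Bit) : pr i ≠ 2 := by
  intro h
  have := (Nat.nth_strictMono Nat.infinite_setOfPred_prime) (Nat.succ_pos (Fintype.equivFin Bit i).val)
  rw [Nat.nth_prime_zero_eq_two] at this
  exact absurd h (Nat.ne_of_gt this)

/-- The moduli of one coordinate. -/
noncomputable def modulus (g : ℕ) : Option Bit → ℕ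
  | none => g
  | some i => pr i

lemma crt {ι : Type} [Fintype ι] (m : ι → ℕ) (h : Pairwise (Function.onFun Nat.Coprime m))
    (t : ∀ o, ZMod (m o)) : ∃ k : ℤ, ∀ o, (k : ZMod (m o)) = t o := by
  obtain ⟨k, hk⟩ := ZMod.intCast_surjective ((ZMod.prodEquivPi m h).symm t)
  refine ⟨k, fun o => ?_⟩
  have e : ZMod.prodEquivPi m h (k : ZMod _) o = t o := by rw [hk]; exact congrFun (RingEquiv.apply_symm_apply _ t) o
  rw [← e, map_intCast]
  rfl

lemma exists_intCast {g : ℕ} (hg : g = 8 ∨ g = 2) (t : ∀ o, ZMod (modulus g o)) :
    ∃ k : ℤ, ∀ o, (k : ZMod (modulus g o)) = t o := by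
  have h2 : ∀ i, Nat.Coprime g (pr i) := fun i => by
    have : Nat.Coprime 2 (pr i) :=
      (Nat.coprime_primes Nat.prime_two (Fact.out : (pr i).Prime)).2 (pr_ne_two i).symm
    rcases hg with rfl | rfl
    · simpa using this.pow_left 3
    · exact this
  have hcop : Pairwise (Function.onFun Nat.Coprime (modulus g)) := by
    intro a b hab
    cases a <;> cases b
    · exact absurd rfl hab
    · exact h2 _
    · exact (h2 _).symm
    · exact (Nat.coprime_primes (Nat.nth_mem_of_infinite Nat.infinite_setOfPred_prime _)
        (Nat.nth_mem_of_infinite Nat.infinite_setOfPred_prime _)).2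
        fun h => hab (congrArg some (pr_injective h))
  exact crt (modulus g) hcop t

/-- The quotient map of `ℤ²` onto the finite group. -/
noncomputable def proj : ℤ × ℤ →+ Site pr where
  toFun v o := match o with
    | none => ((v.1 : ZMod 8), (v.2 : ZMod 2))
    | some i => ((v.1 : ZMod (pr i)), (v.2 : ZMod (pr i)))
  map_zero' := by
    funext o
    cases o
    · exact Prod.ext Int.cast_zero Int.cast_zero
    · exact Prod.ext Int.cast_zero Int.cast_zero
  map_add' v w := by
    funext o
    cases o
    · exact Prod.ext (Int.cast_add _ _) (Int.cast_add _ _)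
    · exact Prod.ext (Int.cast_add _ _) (Int.cast_add _ _)

lemma proj_surjective : Function.Surjective proj := by
  intro t
  obtain ⟨k, hk⟩ := exists_intCast (Or.inl rfl) fun o => match o with
    | none => ((t none : GG).1 : ZMod 8)
    | some i => (t (some i) : ZMod (pr i) × ZMod (pr i)).1
  obtain ⟨l, hl⟩ := exists_intCast (Or.inr rfl) fun o => match o with
    | none => ((t none : GG).2 : ZMod 2)
    | some i => (t (some i) : ZMod (pr i) × ZMod (pr i)).2
  refine ⟨(k, l), funext fun o => ?_⟩
  cases o
  · exact Prod.ext (hk none) (hl none)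
  · exact Prod.ext (hk (some _)) (hl (some _))

/-- The value of a colour. -/
def colour (u v a : ZMod 8) (f : Fin 64 → ZMod 8) : Col → ZMod 8 :=
  Sum.elim f ![u, v, a]

/-- The rule at one site, on Booleans. -/
def Rule (σ : Option Bit → Bool) : Prop :=
  ∃ u v a f, (∀ c val, σ (some (c, val)) = decide (colour u v a f c = val)) ∧
    Allowed (σ none) u v a f

/-- The invariance vector of a colour. -/
def vec : Bit → ℤ × ℤ :=
  fun i => Sum.elim (fun n : Fin 64 => (((n : ℕ) : ℤ), -1)) ![(0, 1), (1, -1), (1, 0)] i.1

/-- The discrete periodic tiling conjecture fails in all dimensions from 4 on. -/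
theorem aperiodic_tiles (ht : TransferSpec) (hno : NoPeriodicColouring) (hex : ColouringExists)
    (d : ℕ) (hd : 4 ≤ d) : ∃ T : Finset (Fin d → ℤ), IsAperiodicTile T := by
  refine ht (Site pr) proj proj_surjective (EqIdx pr Rule) (system pr Rule vec) ?_ ?_ d hd
  · obtain ⟨u, v, a, f, h⟩ := hex
    refine ⟨sol pr (fun x i => decide (colour (u x) (v x) (a x) (fun n => f n x) i.1 = i.2)),
      tiles_sol pr Rule vec _ (fun x => ⟨u x, v x, a x, fun n => f n x, fun c val => rfl, h.allowed x⟩) ?_⟩
    rintro ⟨c, val⟩ x
    have : colour (u (x + vec (c, val))) (v (x + vec (c, val))) (a (x + vec (c, val)))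
        (fun n => f n (x + vec (c, val))) c = colour (u x) (v x) (a x) (fun n => f n x) c := by
      rcases c with n | k
      · exact h.inv_f n x
      · fin_cases k
        · exact h.inv_u x
        · exact h.inv_v x
        · exact h.inv_a x
    simp only [this]
  · intro A hA hP
    obtain ⟨P, hP0, hPer⟩ := hP
    obtain ⟨σ, hS, hinv, hflip, hper⟩ := colours_of_tiles pr Rule vec hA
    choose u v a f hcol hall using hS
    have inv : ∀ c x y, (∀ val, σ y (some (c, val)) = σ x (some (c, val))) →
        colour (u y) (v y) (a y) (f y) c = colour (u x) (v x) (a x) (f x) c := by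
      intro c x y h
      have := h (colour (u x) (v x) (a x) (f x) c)
      rw [hcol, hcol] at this
      simpa using this
    have shift : ∀ c x, colour (u (x + vec (c, 0))) (v (x + vec (c, 0))) (a (x + vec (c, 0)))
        (f (x + vec (c, 0))) c = colour (u x) (v x) (a x) (f x) c :=
      fun c x => inv c x _ fun val => hinv (c, val) x
    refine hno (fun x => σ x none) u v a (fun n x => f x n)
      ⟨fun x => shift (.inr 0) x, fun x => shift (.inr 1) x, fun x => shift (.inr 2) x,
        fun n x => shift (.inl n) x, fun x => hall x⟩ hflip ⟨P, hP0, fun n x => ?_⟩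
    exact inv (.inl n) x _ fun val => by rw [hper P hPer x]

end Vale.Agent.P043.Z4.Glue
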