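import Vale.Agent.P043.Z4.Defs
import Vale.Agent.P043.Z4.Cube
import Vale.Agent.P043.Z4.Gadget

/-!
P043 (discrete, `d ≥ 4`): the system of tiling equations in `ℤ² × G`. Its solutions are exactly colourings of
`ℤ²` by one Boolean per block, with a pointwise rule, invariances, and a gadget marker flipping under steps of two.
-/

namespace Vale.Agent.P043.Z4.Sys

variable {I : Type} (p : I → ℕ) [hp : ∀ i, Fact (p i).Prime]

/-- The blocks: the gadget and one plane block per Boolean. -/
def Gr : Option I → Type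
  | none => GG
  | some i => ZMod (p i) × ZMod (p i)

instance instGroup : ∀ o, AddCommGroup (Gr p o)
  | none => inferInstanceAs (AddCommGroup GG)
  | some i => inferInstanceAs (AddCommGroup (ZMod (p i) × ZMod (p i)))

instance instFinite : ∀ o, Finite (Gr p o)
  | none => inferInstanceAs (Finite GG)
  | some i =>
    haveI : NeZero (p i) := ⟨(hp i).out.ne_zero⟩
    inferInstanceAs (Finite (ZMod (p i) × ZMod (p i)))

/-- The axes of each block. -/
noncomputable def blocks : ∀ o, Axes (Gr p o)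
  | none => gadgetAxes
  | some i => planeAxes (p i)

/-- The finite group of one site. -/
abbrev Site : Type := (o : Option I) → Gr p o

/-- The space of the system. -/
abbrev Spc : Type := (ℤ × ℤ) × Site p

variable [Finite I]

/-- The finite set of the points of `S` over `H`. -/
noncomputable def eqn (H : Finset (ℤ × ℤ)) (S : Set (Spc p)) : Finset (Spc p) :=
  ((H.finite_toSet.prod (Set.finite_univ (α := Site p))).subset
    (Set.inter_subset_left (t := S))).toFinset

lemma mem_eqn {H : Finset (ℤ × ℤ)} {S : Set (Spc p)} {v : Spc p} :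
    v ∈ eqn p H S ↔ v.1 ∈ H ∧ v ∈ S := by
  simp [eqn]

/-- A set over the origin. -/
noncomputable def fibre (T : Set (Site p)) : Finset (Spc p) := eqn p {0} {v | v.2 ∈ T}

lemma tiles_fibre {A : Set (Spc p)} {T : Set (Site p)} :
    Tiles A (fibre p T) ↔ ∀ x g, ∃! f, f ∈ T ∧ g - f ∈ {u | (x, u) ∈ A} := by
  constructor
  · intro h x g
    obtain ⟨⟨h0, f⟩, ⟨hm, hA⟩, hu⟩ := h (x, g)
    obtain ⟨rfl, hT⟩ : h0 = 0 ∧ f ∈ T := by simpa [fibre, mem_eqn] using hm
    refine ⟨f, ⟨hT, by simpa using hA⟩, fun f' hf' => ?_⟩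
    simpa using congrArg Prod.snd (hu (0, f') ⟨by simp [fibre, mem_eqn, hf'.1], by simpa using hf'.2⟩)
  · rintro h ⟨x, g⟩
    obtain ⟨f, ⟨hT, hA⟩, hu⟩ := h x g
    refine ⟨(0, f), ⟨by simp [fibre, mem_eqn, hT], by simpa using hA⟩, ?_⟩
    rintro ⟨h', f'⟩ ⟨hm, hA'⟩
    obtain ⟨rfl, hT'⟩ : h' = 0 ∧ f' ∈ T := by simpa [fibre, mem_eqn] using hm
    rw [hu f' ⟨hT', by simpa using hA'⟩]

variable (S : (Option I → Bool) → Prop) (vec : I → ℤ × ℤ)

/-- The invariance equation of a plane block. -/
noncomputable def shiftEqn (i : I) : Finset (Spc p) :=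
  eqn p {0, vec i} {v | v.2 ∈ diags (blocks p) ∧
    ((v.1 = 0 ∧ v.2 (some i) = 0) ∨ (v.1 = vec i ∧ v.2 (some i) ≠ 0))}

/-- A gadget equation. -/
noncomputable def winEqn (w : Fin 3) : Finset (Spc p) :=
  eqn p ((Finset.univ : Finset (Fin 4)).image fun h => ((0 : ℤ), (h.val : ℤ)))
    {v | (∀ i, v.2 (some i) ∈ (blocks p (some i)).diag) ∧
      ∃ q ∈ winSet w, v.1 = ((0 : ℤ), (q.1.val : ℤ)) ∧ v.2 none = q.2}

/-- The names of the equations. -/
abbrev EqIdx : Type :=
  {T : Set (Site p) // 0 ∈ T ∧ ∀ σ, Trans (lines (blocks p) σ) T} ⊕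
    ({σ : Option I → Bool // ¬S σ} ⊕ (I ⊕ Fin 3))

/-- The set colliding at one forbidden choice. -/
noncomputable def cubeSet (σ : Option I → Bool) : Set (Site p) :=
  (exists_cube (blocks p) σ).choose

/-- The equations. -/
noncomputable def system : EqIdx p S → Finset (Spc p)
  | .inl T => fibre p T.1
  | .inr (.inl σ) => fibre p (cubeSet p σ.1)
  | .inr (.inr (.inl i)) => shiftEqn p vec i
  | .inr (.inr (.inr w)) => winEqn p w

instance : Nonempty (EqIdx p S) := ⟨.inr (.inr (.inr 0))⟩

instance : Finite (EqIdx p S) := by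
  have : Finite (Set (Site p)) := by infer_instance
  infer_instance

/-- A height modulo 4. -/
def toFin (j : ℤ) : Fin 4 := (j : ZMod 4)

lemma toFin_sub (j : ℤ) (h : Fin 4) : toFin (j - (h.val : ℤ)) = toFin j - h := by
  have : ((h.val : ℕ) : ZMod 4) = h := Fin.cast_val_eq_self h
  simp only [toFin, Int.cast_sub, Int.cast_natCast]
  rw [this]
  rfl

/-- The gadget coordinate. -/
abbrev gad (g : Site p) : GG := g none

/-- The offsets of the intended solution. -/
def base (x : ℤ × ℤ) : Site p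
  | none => roleBase (toFin x.2)
  | some i => (0 : Gr p (some i))

/-- The intended axes at a site. -/
def fullAxes (τ : ℤ × ℤ → I → Bool) (x : ℤ × ℤ) : Option I → Bool :=
  fun o => o.elim (bit1 (x.2 : ZMod 8)) (τ x)

/-- The intended solution. -/
noncomputable def sol (τ : ℤ × ℤ → I → Bool) : Set (Spc p) :=
  {v | v.2 - base p v.1 ∈ lines (blocks p) (fullAxes τ v.1)}

lemma bit1_cast (j : ℤ) : bit1 (j : ZMod 8) = roleAxis (toFin j) := by
  have key : ∀ a : ZMod 8, bit1 a = roleAxis (ZMod.castHom (show 4 ∣ 8 by norm_num) (ZMod 4) a) := by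
    decide +kernel
  rw [key, map_intCast]
  rfl

lemma tiles_sol (τ : ℤ × ℤ → I → Bool) (hS : ∀ x, S (fullAxes τ x))
    (hinv : ∀ i x, τ (x + vec i) i = τ x i) : ∀ k, Tiles (sol p τ) (system p S vec k) := by
  have shift : ∀ (T : Set (Site p)) (x : ℤ × ℤ), Trans (lines (blocks p) (fullAxes τ x)) T →
      ∀ g, ∃! f, f ∈ T ∧ g - f ∈ {u | (x, u) ∈ sol p τ} := fun T x hT g => by
    have := hT (g - base p x)
    simpa [sol, sub_right_comm] using this
  rintro (T | σ | i | w)
  · exact (tiles_fibre p).2 fun x => shift _ x (T.2.2 _)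
  · exact (tiles_fibre p).2 fun x => shift _ x
      ((exists_cube (blocks p) σ.1).choose_spec.2.2 _ (fun h => σ.2 (h ▸ hS x)))
  · rintro ⟨x, g⟩
    obtain ⟨f, ⟨hf, hz⟩, hu⟩ := trans_diags (blocks p) (fullAxes τ x) (g - base p x)
    obtain ⟨f', ⟨hf', hz'⟩, hu'⟩ :=
      trans_diags (blocks p) (fullAxes τ (x - vec i)) (g - base p (x - vec i))
    have same : f (some i) = f' (some i) := by
      have h1 := (mem_lines _).1 hz (some i)
      have h2 := (mem_lines _).1 hz' (some i)
      have hb : τ (x - vec i) i = τ x i := by simpa using (hinv i (x - vec i)).symm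
      refine ((blocks p (some i)).diag_trans (τ x i) (g (some i))).unique ⟨hf _, ?_⟩ ⟨hf' _, ?_⟩
      · change g (some i) - (0 : Gr p (some i)) - f (some i) ∈ (blocks p (some i)).K (τ x i) at h1
        simpa only [sub_zero] using h1
      · change g (some i) - (0 : Gr p (some i)) - f' (some i) ∈ (blocks p (some i)).K (τ (x - vec i) i) at h2
        simpa only [sub_zero, hb] using h2
    by_cases h0 : f (some i) = 0
    · refine ⟨(0, f), ⟨(mem_eqn p).2 ⟨by simp, hf, Or.inl ⟨rfl, h0⟩⟩, ?_⟩, ?_⟩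
      · simpa [sol, sub_right_comm] using hz
      · rintro ⟨k, q⟩ ⟨hm, hA⟩
        obtain ⟨-, hq, ⟨rfl, hq0⟩ | ⟨rfl, hq0⟩⟩ := (mem_eqn p).1 hm
        · rw [hu q ⟨hq, by simpa [sol, sub_right_comm] using hA⟩]
        · exfalso
          have := hu' q ⟨hq, by simpa [sol, sub_right_comm] using hA⟩
          exact hq0 (by show q (some i) = 0; rw [show q = f' from this, ← same, h0])
    · refine ⟨(vec i, f'), ⟨(mem_eqn p).2 ⟨by simp, hf', Or.inr ⟨rfl, fun e => h0 (same.trans e)⟩⟩, ?_⟩, ?_⟩
      · simpa [sol, sub_right_comm] using hz'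
      · rintro ⟨k, q⟩ ⟨hm, hA⟩
        obtain ⟨-, hq, ⟨rfl, hq0⟩ | ⟨rfl, hq0⟩⟩ := (mem_eqn p).1 hm
        · exfalso
          have := hu q ⟨hq, by simpa [sol, sub_right_comm] using hA⟩
          exact h0 (by rw [← show q = f from this]; exact hq0)
        · rw [hu' q ⟨hq, by simpa [sol, sub_right_comm] using hA⟩]
  · rintro ⟨x, g⟩
    have hlen := roles_exact w (toFin x.2) (gad p g)
    obtain ⟨q₀, hq₀⟩ := List.length_eq_one_iff.1 hlen
    have hq : ∀ q, (q ∈ winSet w ∧ inK (roleAxis (toFin x.2 - q.1))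
        (gad p g - q.2 - roleBase (toFin x.2 - q.1)) = true) ↔ q = q₀ := by
      intro q
      have : q ∈ ([q₀] : List (Fin 4 × GG)) ↔ q = q₀ := by simp
      rw [← this, ← hq₀, List.mem_filter]
    have hy := toFin_sub x.2
    set y := x - ((0 : ℤ), (q₀.1.val : ℤ)) with hy₀
    choose c hc hcu using fun i => (blocks p (some i)).diag_trans (τ y i) (g (some i))
    let f : Site p := fun o => match o with
      | none => q₀.2
      | some i => c i
    have hmemq := (hq q₀).2 rfl
    refine ⟨(((0 : ℤ), (q₀.1.val : ℤ)), f), ⟨(mem_eqn p).2 ⟨by simp,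
      fun i => (hc i).1, q₀, hmemq.1, rfl, rfl⟩, ?_⟩, ?_⟩
    · refine (mem_lines _).2 fun o => ?_
      cases o with
      | none =>
        show inK (bit1 ((x.2 - (q₀.1.val : ℤ) : ℤ) : ZMod 8))
          (gad p g - q₀.2 - roleBase (toFin (x.2 - (q₀.1.val : ℤ)))) = true
        rw [bit1_cast, hy]
        exact hmemq.2
      | some i =>
        show g (some i) - c i - (0 : Gr p (some i)) ∈ (blocks p (some i)).K (τ y i)
        simpa only [sub_zero] using (hc i).2
    · rintro ⟨k, r⟩ ⟨hm, hA⟩
      obtain ⟨-, hr, q, hqw, hk, hrn⟩ := (mem_eqn p).1 hm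
      simp only at hk hrn hr
      subst hk
      have hA' := (mem_lines _).1 hA
      have h0 : inK (bit1 ((x.2 - (q.1.val : ℤ) : ℤ) : ZMod 8))
          (gad p g - gad p r - roleBase (toFin (x.2 - (q.1.val : ℤ)))) = true := hA' none
      rw [bit1_cast, hy, show gad p r = q.2 from hrn] at h0
      obtain rfl := (hq q).1 ⟨hqw, h0⟩
      refine Prod.ext rfl (funext fun o => ?_)
      cases o with
      | none => exact hrn
      | some i =>
        refine hcu i _ ⟨hr i, ?_⟩
        have := hA' (some i)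
        change g (some i) - r (some i) - (0 : Gr p (some i)) ∈ (blocks p (some i)).K (τ y i) at this
        simpa only [sub_zero] using this

lemma exists_reps : ∀ (m : Bool) (z : GG), ∃ r ∈ reps m, inK m (z - r) = true := by decide +kernel

/-- Every solution is a colouring with the rules. -/
lemma colours_of_tiles {A : Set (Spc p)} (hA : ∀ k, Tiles A (system p S vec k)) :
    ∃ σ : ℤ × ℤ → Option I → Bool, (∀ x, S (σ x)) ∧
      (∀ i x, σ (x + vec i) (some i) = σ x (some i)) ∧
      (∀ x, σ x none ≠ σ (x - (0, 2)) none) ∧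
      ∀ P : ℕ, (∀ (a : Spc p) (h : ℤ × ℤ), (a.1 + P • h, a.2) ∈ A ↔ a ∈ A) →
        ∀ x, σ (x + ((P : ℤ), 0)) = σ x := by
  classical
  choose σ c hσ using fun x : ℤ × ℤ => eq_coset (blocks p) {u | (x, u) ∈ A}
    fun T h0 hT g => (tiles_fibre p).1 (hA (.inl ⟨T, h0, hT⟩)) x g
  have hσ' : ∀ x u, (x, u) ∈ A ↔ u - c x ∈ lines (blocks p) (σ x) := hσ
  refine ⟨σ, fun x => ?_, fun i x => ?_, fun x hflip => ?_, fun P hP x => ?_⟩
  · by_contra hx
    obtain ⟨h0, ⟨f, hfT, hf0, hfl⟩, -⟩ := (exists_cube (blocks p) (σ x)).choose_spec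
    have := ((tiles_fibre p).1 (hA (.inr (.inl ⟨σ x, hx⟩))) x (c x + f)).unique
      ⟨h0, (hσ' _ _).2 (by simpa using hfl)⟩ ⟨hfT, (hσ' _ _).2 (by simp)⟩
    exact hf0 this.symm
  · by_contra hne
    set y := x + vec i with hy
    set B := blocks p (some i)
    obtain ⟨w, hw, hw'⟩ : ∃ w, w - c y (some i) ∈ B.K (σ y (some i)) ∧
        w - (c x (some i) + B.top) ∈ B.K (σ x (some i)) :=
      plane_cross (p i) hne _ _
    let g : Site p := Function.update (c y) (some i) w
    obtain ⟨f, ⟨hf, hz⟩, -⟩ := trans_diags (blocks p) (σ y) (g - c y)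
    obtain ⟨f', ⟨hf', hz'⟩, -⟩ := trans_diags (blocks p) (σ x) (g - c x)
    have e0 : f (some i) = 0 :=
      (B.diag_trans _ (w - c y (some i))).unique
        ⟨hf _, by simpa [g, B] using (mem_lines _).1 hz (some i)⟩ ⟨B.diag_zero, by simpa using hw⟩
    have e1 : f' (some i) = B.top :=
      (B.diag_trans _ (w - c x (some i))).unique
        ⟨hf' _, by simpa [g, B] using (mem_lines _).1 hz' (some i)⟩
        ⟨B.diag_sum, by simpa [sub_sub, Axes.top] using hw'⟩
    have key := (hA (.inr (.inr (.inl i))) (y, g)).unique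
      (y₁ := (0, f)) (y₂ := (vec i, f'))
      ⟨(mem_eqn p).2 ⟨by simp, hf, Or.inl ⟨rfl, e0⟩⟩,
        by simpa [hσ', sub_right_comm] using hz⟩
      ⟨(mem_eqn p).2 ⟨by simp, hf', Or.inr ⟨rfl, show f' (some i) ≠ 0 from e1 ▸ B.top_ne⟩⟩,
        by simpa [hσ', sub_right_comm, hy] using hz'⟩
    have k2 : f = f' := congrArg Prod.snd key
    exact B.top_ne (by rw [← e1, ← k2, e0])
  · let site : Fin 4 → ℤ × ℤ := fun h => x - ((0 : ℤ), (h.val : ℤ))
    let m : Fin 4 → Bool := fun h => σ (site h) none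
    let cc : Fin 4 → GG := fun h => c (site h) none
    have hm02 : m 2 = m 0 := by
      have : site 0 = x := by simp [site]
      have h2 : site 2 = x - (0, 2) := by simp [site]
      simp only [m, this, h2, hflip]
    choose r hr hrK using fun h : Fin 4 => exists_reps (m h) (cc h - cc 0)
    have hnw := no_window (m 0) (m 1) (m 3)
    simp only [List.all_eq_true, Bool.or_eq_true, Bool.not_eq_true'] at hnw
    have overlap : ∀ h h' : Fin 4, ∀ a a' : GG, inK (m h) (cc h - cc 0 - a) = true →
        inK (m h') (cc h' - cc 0 - a') = true → fits h h' (m h) (m h') a a' = false → False := by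
      intro h h' a a' ha ha' hf
      obtain ⟨w, q, hq, q', hq', rfl, rfl, hne, hn⟩ : ∃ w, ∃ q ∈ winSet w, ∃ q' ∈ winSet w,
          q.1 = h ∧ q'.1 = h' ∧ q ≠ q' ∧ nearK (m h) (m h') (a + q.2 - (a' + q'.2)) = true := by
        simp only [fits, List.all_eq_false] at hf
        obtain ⟨w, -, hw⟩ := hf
        simp only [Bool.not_eq_true, List.all_eq_false] at hw
        obtain ⟨q, hq, hqq⟩ := hw
        obtain ⟨q', hq', hqq'⟩ := hqq
        by_cases hc : q.1 = h ∧ q'.1 = h' ∧ q ≠ q'
        · exact ⟨w, q, hq, q', hq', hc.1, hc.2.1, hc.2.2, by simpa [hc] using hqq'⟩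
        · simp [hc] at hqq'
      obtain ⟨k, hk, hk'⟩ := List.any_eq_true.1 hn
      have hkm : k ∈ gadgetK (m q.1) := by
        revert hk
        rcases Bool.eq_false_or_eq_true (m q.1) with hb | hb <;> rw [hb] <;>
          simp only [List.mem_cons, List.not_mem_nil, or_false] <;>
          rintro (rfl | rfl) <;> simp only [mem_gadgetK] <;> decide
      set z : GG := cc 0 + a + q.2 - k with hz
      have z1 : z - q.2 - cc q.1 ∈ gadgetK (m q.1) := by
        have : z - q.2 - cc q.1 = -k - (cc q.1 - cc 0 - a) := by rw [hz]; abel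
        rw [this]
        exact sub_mem (neg_mem hkm) ha
      have z2 : z - q'.2 - cc q'.1 ∈ gadgetK (m q'.1) := by
        have : z - q'.2 - cc q'.1 = (a + q.2 - (a' + q'.2) - k) - (cc q'.1 - cc 0 - a') := by
          rw [hz]; abel
        rw [this]
        exact sub_mem hk' ha'
      let g : Site p := Function.update (c x) none z
      have rep : ∀ u : Fin 4 × GG, u ∈ winSet w → z - u.2 - cc u.1 ∈ gadgetK (m u.1) →
          ∃ f, ((((0 : ℤ), (u.1.val : ℤ)), f) : Spc p) ∈ winEqn p w ∧
            ((x, g) : Spc p) - (((0 : ℤ), (u.1.val : ℤ)), f) ∈ A ∧ f none = u.2 := by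
        intro u hu hz
        choose d hd _ using fun i =>
          (blocks p (some i)).diag_trans (σ (site u.1) (some i)) (g (some i) - c (site u.1) (some i))
        let f : Site p := fun o => match o with
          | none => u.2
          | some i => d i
        refine ⟨f, (mem_eqn p).2 ⟨by simp, fun i => (hd i).1, u, hu, rfl, rfl⟩,
          (hσ' (site u.1) (g - f)).2 ((mem_lines _).2 fun o => ?_), rfl⟩
        cases o with
        | none =>
          have e : gad p g = z := Function.update_self none z (c x)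
          show gad p g - u.2 - cc u.1 ∈ gadgetK (m u.1)
          rw [e]
          exact hz
        | some i =>
          have := (hd i).2
          simpa [f, sub_right_comm] using this
      obtain ⟨f, hf1, hf2, hf3⟩ := rep q hq z1
      obtain ⟨f', hf1', hf2', hf3'⟩ := rep q' hq' z2
      have key := (hA (.inr (.inr (.inr w))) (x, g)).unique ⟨hf1, hf2⟩ ⟨hf1', hf2'⟩
      have k1 := congrArg (fun v : Spc p => v.1.2) key
      have k2 := congrArg (fun v : Spc p => v.2 none) key
      simp only [hf3, hf3'] at k2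
      exact hne (Prod.ext (Fin.ext (by simpa using k1)) k2)
    have h00 : inK (m 0) (cc 0 - cc 0 - 0) = true := by
      rw [sub_self, sub_zero]
      exact (gadgetK (m 0)).zero_mem
    rcases hnw (r 1) (hr 1) with h01 | h2
    · exact overlap 0 1 0 (r 1) h00 (hrK 1) h01
    rcases h2 (r 2) (hm02 ▸ hr 2) with h02 | h3
    · rcases Bool.and_eq_false_iff.1 h02 with h | h
      · exact overlap 0 2 0 (r 2) h00 (hrK 2) (by rwa [hm02])
      · exact overlap 1 2 (r 1) (r 2) (hrK 1) (hrK 2) (by rwa [hm02])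
    rcases Bool.and_eq_false_iff.1 (h3 (r 3) (hr 3)) with h | h
    · rcases Bool.and_eq_false_iff.1 h with h | h
      · exact overlap 0 3 0 (r 3) h00 (hrK 3) h
      · exact overlap 1 3 (r 1) (r 3) (hrK 1) (hrK 3) h
    · exact overlap 2 3 (r 2) (r 3) (hrK 2) (hrK 3) (by rwa [hm02])
  · set y := x + ((P : ℤ), 0) with hy
    have hxy : ∀ u, u - c y ∈ lines (blocks p) (σ y) ↔ u - c x ∈ lines (blocks p) (σ x) := by
      intro u
      rw [← hσ', ← hσ', ← hP (x, u) ((1 : ℤ), 0)]
      simp [hy]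
    have hc : c y - c x ∈ lines (blocks p) (σ x) := (hxy _).1 (by simp)
    refine lines_injective (blocks p) (SetLike.ext fun u => ?_)
    have := hxy (u + c y)
    rw [add_sub_cancel_right, add_sub_assoc] at this
    rw [this, add_comm, AddSubgroup.add_mem_cancel_left _ hc]

end Vale.Agent.P043.Z4.Sys
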