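import Mathlib

/-!
P043 transfer, combinatorics on a line: blocks with a notch and a key.

Every exact cover of `ℤ` by translates of the blocks `E j` (`j : ZMod J`) follows the cyclic order with step `L`,
so all pieces of one kind lie in a single class modulo `N = J * L`.
-/

namespace Vale.Agent.P043.Z4.Stack

set_option linter.unusedSectionVars false

variable (J : ℕ)

/-- The length of a block. -/
def L : ℤ := 4 * J + 12

/-- The period. -/
def N : ℤ := J * L J

variable {J}

/-- The notch parameter. -/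
def r (j : ZMod J) : ℤ := j.val + 1

/-- `[0, L)` without the notch of `j`, plus the key that fits the notch of `j - 1`. -/
noncomputable def E (j : ZMod J) : Finset ℤ :=
  insert (-1 - r (j - 1)) ((Finset.Ico 0 (L J)).erase (L J - 1 - r j))

theorem mem_E {j : ZMod J} {x : ℤ} :
    x ∈ E j ↔ (0 ≤ x ∧ x < L J ∧ x ≠ L J - 1 - r j) ∨ x = -1 - r (j - 1) := by
  simp only [E, Finset.mem_insert, Finset.mem_erase, Finset.mem_Ico]
  tauto

variable [NeZero J]

theorem r_bd (j : ZMod J) : 1 ≤ r j ∧ r j ≤ J := by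
  have := ZMod.val_lt j
  unfold r
  omega

theorem r_inj {i j : ZMod J} (h : r i = r j) : i = j := by
  apply ZMod.val_injective J
  unfold r at h
  omega

theorem L_pos : 0 < L J := by unfold L; omega

theorem N_pos : 0 < N J := by
  have := NeZero.pos J
  exact mul_pos (by exact_mod_cast this) L_pos

theorem J_pos : (1 : ℤ) ≤ J := by
  have := NeZero.pos J
  omega

/-- The standard cover: piece `m` at `m * L`, of kind `m mod J`. -/
theorem std_cover (x : ℤ) : ∃! m : ℤ, x - m * L J ∈ E (m : ZMod J) := by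
  have hL := L_pos (J := J)
  have hdiv := Int.emod_add_mul_ediv x (L J)
  have h0 := Int.emod_nonneg x hL.ne'
  have h1 := Int.emod_lt_of_pos x hL
  set m₀ := x / L J
  set ρ := x % L J
  have key : ∀ m : ℤ, x - m * L J ∈ E (m : ZMod J) →
      m = if ρ = L J - 1 - r (m₀ : ZMod J) then m₀ + 1 else m₀ := by
    intro m hm
    rcases mem_E.1 hm with ⟨a, b, c⟩ | a
    · have hm0 : m = m₀ := by
        have e : (m₀ - m) * L J = x - m * L J - ρ := by linear_combination hdiv
        have u1 : (m₀ - m) * L J < 1 * L J := by omega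
        have u2 : (-1) * L J < (m₀ - m) * L J := by omega
        have := lt_of_mul_lt_mul_right u1 hL.le
        have := lt_of_mul_lt_mul_right u2 hL.le
        omega
      subst hm0
      rw [if_neg]
      intro hh
      apply c
      linear_combination hh - hdiv
    · have hb := r_bd ((m : ZMod J) - 1)
      have hJ : (J : ℤ) < L J := by unfold L; omega
      have hm0 : m = m₀ + 1 := by
        have e : (m₀ + 1 - m) * L J = x - m * L J - ρ + L J := by linear_combination hdiv
        have u1 : (m₀ + 1 - m) * L J < 1 * L J := by omega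
        have u2 : (-1) * L J < (m₀ + 1 - m) * L J := by omega
        have := lt_of_mul_lt_mul_right u1 hL.le
        have := lt_of_mul_lt_mul_right u2 hL.le
        omega
      have hc : ((m : ZMod J) - 1) = (m₀ : ZMod J) := by
        subst hm0
        push_cast
        ring
      rw [hc] at a
      rw [if_pos]
      · exact hm0
      · subst hm0
        linear_combination a + hdiv
  refine ⟨if ρ = L J - 1 - r (m₀ : ZMod J) then m₀ + 1 else m₀, ?_, key⟩
  by_cases hh : ρ = L J - 1 - r (m₀ : ZMod J)
  · beta_reduce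
    rw [if_pos hh, mem_E]
    right
    have : (((m₀ + 1 : ℤ)) : ZMod J) - 1 = (m₀ : ZMod J) := by push_cast; ring
    rw [this]
    linear_combination hh - hdiv
  · beta_reduce
    rw [if_neg hh, mem_E]
    left
    have : x - m₀ * L J = ρ := by linear_combination -hdiv
    rw [this]
    exact ⟨h0, h1, hh⟩

variable {P : Type*} {t : P → ℤ} {c : P → ZMod J}

theorem next (h : ∀ x, ∃! p, x - t p ∈ E (c p)) (p : P) :
    ∃ q, t q = t p + L J ∧ c q = c p + 1 := by
  have uniq : ∀ x p q, x - t p ∈ E (c p) → x - t q ∈ E (c q) → p = q :=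
    fun x p q hp hq => (h x).unique hp hq
  have hJ := J_pos (J := J)
  have hLdef : L J = 4 * (J : ℤ) + 12 := rfl
  obtain ⟨hr1, hr2⟩ := r_bd (c p)
  obtain ⟨q, hq, -⟩ := h (t p + L J - 1 - r (c p))
  obtain ⟨hq1, hq2⟩ := r_bd (c q)
  obtain ⟨hk1, hk2⟩ := r_bd (c q - 1)
  obtain ⟨hp1, hp2⟩ := r_bd (c p - 1)
  have hne : q ≠ p := by
    rintro rfl
    rw [mem_E] at hq
    omega
  rcases mem_E.1 hq with ⟨a, b, e⟩ | e
  · exfalso
    by_cases hl : t q ≤ t p + L J - 1 - r (c p) - 2
    · by_cases hh : t p + L J - 1 - r (c p) - 1 - t q = L J - 1 - r (c q)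
      · apply hne
        refine uniq (t p + L J - 1 - r (c p) - 2) q p (mem_E.2 (Or.inl ?_)) (mem_E.2 (Or.inl ?_))
        all_goals omega
      · apply hne
        refine uniq (t p + L J - 1 - r (c p) - 1) q p (mem_E.2 (Or.inl ?_)) (mem_E.2 (Or.inl ?_))
        all_goals omega
    · apply hne
      refine uniq (t p + L J - 1 - r (c p) + 1) q p (mem_E.2 (Or.inl ?_)) (mem_E.2 (Or.inl ?_))
      all_goals omega
  · have hge : t p + L J ≤ t q := by
      by_contra hlt
      apply hne
      refine uniq (t p + L J - 1) q p (mem_E.2 (Or.inl ?_)) (mem_E.2 (Or.inl ?_))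
      all_goals omega
    have hle : t q ≤ t p + L J := by
      by_contra hlt
      obtain ⟨w, hw, -⟩ := h (t p + L J)
      obtain ⟨hw1, hw2⟩ := r_bd (c w)
      obtain ⟨hv1, hv2⟩ := r_bd (c w - 1)
      rcases mem_E.1 hw with ⟨a, b, f⟩ | f
      · by_cases hl : t w ≤ t p + L J - 3
        · have hwp : w ≠ p := by rintro rfl; omega
          apply hwp
          by_cases g1 : t p + L J - 1 - t w = L J - 1 - r (c w)
          · by_cases g2 : r (c p) = 1
            · refine uniq (t p + L J - 3) w p (mem_E.2 (Or.inl ?_)) (mem_E.2 (Or.inl ?_))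
              all_goals omega
            · refine uniq (t p + L J - 2) w p (mem_E.2 (Or.inl ?_)) (mem_E.2 (Or.inl ?_))
              all_goals omega
          · refine uniq (t p + L J - 1) w p (mem_E.2 (Or.inl ?_)) (mem_E.2 (Or.inl ?_))
            all_goals omega
        · have hwq : w ≠ q := by rintro rfl; omega
          apply hwq
          by_cases g1 : t q - t w = L J - 1 - r (c w)
          · refine uniq (t q + 1) w q (mem_E.2 (Or.inl ?_)) (mem_E.2 (Or.inl ?_))
            all_goals omega
          · refine uniq (t q) w q (mem_E.2 (Or.inl ?_)) (mem_E.2 (Or.inl ?_))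
            all_goals omega
      · have hwq : w ≠ q := by rintro rfl; omega
        apply hwq
        refine uniq (t p + L J + J + 2) w q (mem_E.2 (Or.inl ?_)) (mem_E.2 (Or.inl ?_))
        all_goals omega
    refine ⟨q, by omega, ?_⟩
    have : r (c q - 1) = r (c p) := by omega
    rw [← r_inj this]
    ring

theorem chain (h : ∀ x, ∃! p, x - t p ∈ E (c p)) (p : P) (m : ℕ) :
    ∃ q, t q = t p + m * L J ∧ c q = c p + m := by
  induction m with
  | zero => exact ⟨p, by simp, by simp⟩
  | succ m ih =>
    obtain ⟨q, h1, h2⟩ := ih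
    obtain ⟨q', h3, h4⟩ := next h q
    refine ⟨q', ?_, ?_⟩
    · rw [h3, h1]; push_cast; ring
    · rw [h4, h2]; push_cast; ring

theorem zero_mem_E (j : ZMod J) : (0 : ℤ) ∈ E j := by
  have := r_bd j
  rw [mem_E]
  left
  unfold L
  omega

theorem inj (h : ∀ x, ∃! p, x - t p ∈ E (c p)) {p q : P} (e : t p = t q) : p = q :=
  (h (t p)).unique (by simpa using zero_mem_E (c p)) (by simpa [e] using zero_mem_E (c q))

theorem compare (h : ∀ x, ∃! p, x - t p ∈ E (c p)) (p q : P) (hle : t p ≤ t q) :
    ∃ m : ℕ, t q = t p + m * L J ∧ c q = c p + m := by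
  have hL := L_pos (J := J)
  have h0 := Int.emod_nonneg (t q - t p) hL.ne'
  have h1 := Int.emod_lt_of_pos (t q - t p) hL
  have hd := Int.emod_add_mul_ediv (t q - t p) (L J)
  have hm : 0 ≤ (t q - t p) / L J := Int.ediv_nonneg (by omega) hL.le
  obtain ⟨m, hm'⟩ := Int.eq_ofNat_of_zero_le hm
  obtain ⟨w, hw1, hw2⟩ := chain h p m
  set d := (t q - t p) % L J
  have hq : t q = t w + d := by
    rw [hw1]; rw [hm'] at hd; linear_combination -hd
  have hLdef : L J = 4 * (J : ℤ) + 12 := rfl
  have hJ := J_pos (J := J)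
  obtain ⟨a1, a2⟩ := r_bd (c q)
  obtain ⟨b1, b2⟩ := r_bd (c w)
  have hwq : w = q := by
    by_cases g : d = L J - 1 - r (c w)
    · refine (h (t q + 1)).unique (mem_E.2 (Or.inl ?_)) (mem_E.2 (Or.inl ?_))
      all_goals omega
    · refine (h (t q)).unique (mem_E.2 (Or.inl ?_)) (mem_E.2 (Or.inl ?_))
      all_goals omega
  subst hwq
  exact ⟨m, hw1, hw2⟩

/-- All pieces of an exact cover sit on one translate of the standard positions, each used once. -/
theorem rigid (h : ∀ x, ∃! p, x - t p ∈ E (c p)) :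
    ∃ u, 0 ≤ u ∧ u < N J ∧ (∀ p, N J ∣ t p - (c p).val * L J - u) ∧
      ∀ (j : ZMod J) (y : ℤ), ∃! p, c p = j ∧ t p = u + j.val * L J + N J * y := by
  have dvd_aux : ∀ (i j : ZMod J) (m : ℤ), j = i + m → N J ∣ m * L J - (j.val - i.val) * L J := by
    intro i j m e
    have : ((m - (j.val - i.val) : ℤ) : ZMod J) = 0 := by
      push_cast
      rw [ZMod.natCast_zmod_val, ZMod.natCast_zmod_val, e]
      ring
    obtain ⟨k, hk⟩ := (ZMod.intCast_zmod_eq_zero_iff_dvd _ _).1 this
    exact ⟨k, by unfold N; linear_combination (L J) * hk⟩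
  obtain ⟨p₀, -, -⟩ := h 0
  refine ⟨(t p₀ - (c p₀).val * L J) % N J, Int.emod_nonneg _ N_pos.ne',
    Int.emod_lt_of_pos _ N_pos, ?_⟩
  set u := (t p₀ - (c p₀).val * L J) % N J
  have hu : N J ∣ t p₀ - (c p₀).val * L J - u := by
    refine ⟨(t p₀ - (c p₀).val * L J) / N J, ?_⟩
    have := Int.emod_add_mul_ediv (t p₀ - (c p₀).val * L J) (N J)
    linear_combination -this
  have hall : ∀ p, N J ∣ t p - (c p).val * L J - u := by
    intro p
    rcases le_total (t p₀) (t p) with hle | hle
    · obtain ⟨m, e1, e2⟩ := compare h p₀ p hle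
      have hh := dvd_aux (c p₀) (c p) m (by simpa using e2)
      have := dvd_add hu hh
      have e : t p - (c p).val * L J - u = (t p₀ - (c p₀).val * L J - u) +
          ((m : ℤ) * L J - ((c p).val - (c p₀).val) * L J) := by rw [e1]; ring
      rw [e]; exact this
    · obtain ⟨m, e1, e2⟩ := compare h p p₀ hle
      have hh := dvd_aux (c p) (c p₀) m (by simpa using e2)
      have := dvd_sub hu hh
      have e : t p - (c p).val * L J - u = (t p₀ - (c p₀).val * L J - u) -
          ((m : ℤ) * L J - ((c p₀).val - (c p).val) * L J) := by rw [e1]; ring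
      rw [e]; exact this
  refine ⟨hall, fun j y => ?_⟩
  set T := u + j.val * L J + N J * y with hT
  obtain ⟨p, hp, -⟩ := h (T - 2 * L J)
  have hLdef : L J = 4 * (J : ℤ) + 12 := rfl
  obtain ⟨a1, a2⟩ := r_bd (c p - 1)
  have hple : t p ≤ T := by
    rw [mem_E] at hp
    omega
  obtain ⟨k, hk⟩ := hall p
  have hmul : T - t p = ((j.val : ℤ) - (c p).val + J * (y - k)) * L J := by
    rw [hT]; unfold N at hk ⊢; linear_combination -hk
  have hnn : 0 ≤ (j.val : ℤ) - (c p).val + J * (y - k) := by
    by_contra hneg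
    have := mul_neg_of_neg_of_pos (not_le.1 hneg) (L_pos (J := J))
    omega
  obtain ⟨m, hm⟩ := Int.eq_ofNat_of_zero_le hnn
  obtain ⟨q, q1, q2⟩ := chain h p m
  refine ⟨q, ⟨?_, ?_⟩, fun q' hq' => inj h ?_⟩
  · rw [q2]
    have : (((j.val : ℤ) - (c p).val + J * (y - k) : ℤ) : ZMod J) = ((m : ℤ) : ZMod J) := by rw [hm]
    push_cast at this
    rw [ZMod.natCast_zmod_val, ZMod.natCast_zmod_val, ZMod.natCast_self] at this
    linear_combination -this
  · rw [q1, ← hm]
    linear_combination -hmul
  · rw [hq'.2, q1, ← hm]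
    linear_combination hmul

end Vale.Agent.P043.Z4.Stack
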