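import Vale.Agent.P043.Z4.Defs
import Vale.Agent.P043.Z4.TransferStack

/-!
P043 transfer: a finite system of tiling equations in `ℤ² × G` with a solution and no periodic solution
gives an aperiodic finite tile in `ℤ^d` for every `d ≥ 4`.

* `Good` is solvable, and no solution has a period `P • v` for all `v`.
* `good_lift` removes the finite group, `good_stack` merges the equations, `good_pad` adds dimensions.
-/

namespace Vale.Agent.P043.Z4

open Finset

section General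

variable {V : Type*} [AddCommGroup V]

/-- Invariance under all `P`-multiples for some `P > 0`. -/
def Per (A : Set V) : Prop := ∃ P : ℕ, 0 < P ∧ ∀ a v : V, a + P • v ∈ A ↔ a ∈ A

/-- A system of tiling equations with a solution and no periodic one. -/
def Good {ι : Type*} (F : ι → Finset V) : Prop :=
  (∃ A, ∀ i, Tiles A (F i)) ∧ ∀ A, (∀ i, Tiles A (F i)) → ¬ Per A

theorem Tiles.nonempty {A : Set V} {F : Finset V} (h : Tiles A F) : F.Nonempty := by
  obtain ⟨f, ⟨hf, -⟩, -⟩ := h 0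
  exact ⟨f, hf⟩

theorem tiles_image {I : Type*} [DecidableEq V] {s : Finset I} {g : I → V}
    (hg : Set.InjOn g s) {A : Set V} :
    Tiles A (s.image g) ↔ ∀ x, ∃! i, i ∈ s ∧ x - g i ∈ A := by
  refine forall_congr' fun x => ⟨?_, ?_⟩
  · rintro ⟨f, ⟨hf, hA⟩, hu⟩
    obtain ⟨i, hi, rfl⟩ := Finset.mem_image.1 hf
    exact ⟨i, ⟨hi, hA⟩, fun j hj => hg hj.1 hi (hu _ ⟨Finset.mem_image_of_mem g hj.1, hj.2⟩)⟩
  · rintro ⟨i, ⟨hi, hA⟩, hu⟩
    refine ⟨g i, ⟨Finset.mem_image_of_mem g hi, hA⟩, ?_⟩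
    rintro f ⟨hf, hfA⟩
    obtain ⟨j, hj, rfl⟩ := Finset.mem_image.1 hf
    rw [hu j ⟨hj, hfA⟩]

theorem good_map {W : Type*} [AddCommGroup W] [DecidableEq W] (e : V ≃+ W) {ι : Type*}
    {F : ι → Finset V} (h : Good F) : Good fun i => (F i).image e := by
  have key : ∀ (A : Set W) (F : Finset V), Tiles A (F.image e) ↔ Tiles (e ⁻¹' A) F := by
    intro A F
    rw [tiles_image e.injective.injOn]
    refine ⟨fun H x => ?_, fun H x => ?_⟩
    · obtain h := H (e x)
      simpa only [← map_sub, Set.mem_preimage] using h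
    · obtain h := H (e.symm x)
      simpa only [Set.mem_preimage, map_sub, AddEquiv.apply_symm_apply] using h
  obtain ⟨⟨A, hA⟩, hN⟩ := h
  refine ⟨⟨e.symm ⁻¹' A, fun i => ?_⟩, fun B hB => ?_⟩
  · rw [key]
    convert hA i
    ext x
    simp
  · rintro ⟨P, hP, hper⟩
    refine hN _ (fun i => (key B (F i)).1 (hB i)) ⟨P, hP, fun a v => ?_⟩
    simp only [Set.mem_preimage, map_add, map_nsmul]
    exact hper _ _

theorem good_pad {U : Type*} [AddCommGroup U] [DecidableEq (V × U)] {T : Finset V}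
    (h : Good fun _ : Unit => T) : Good fun _ : Unit => T.image fun f => (f, (0 : U)) := by
  have hg : Set.InjOn (fun f : V => (f, (0 : U))) T := fun a _ b _ e => congrArg Prod.fst e
  obtain ⟨⟨A, hA⟩, hN⟩ := h
  refine ⟨⟨{x | x.1 ∈ A}, fun _ => (tiles_image hg).2 fun x => ?_⟩, fun B hB => ?_⟩
  · exact hA () x.1
  · rintro ⟨P, hP, hper⟩
    refine hN {v | (v, (0 : U)) ∈ B} (fun _ x => ?_) ⟨P, hP, fun a v => ?_⟩
    · simpa using (tiles_image hg).1 (hB ()) (x, 0)
    · simpa using hper (a, 0) (v, 0)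

end General

section Stacking

open Stack

variable {W : Type*} [AddCommGroup W] {J : ℕ} [NeZero J]

/-- Many equations in `W × ℤ` become one. -/
theorem good_stack {F : ZMod J → Finset (W × ℤ)} (h : Good F) :
    ∃ T : Finset (W × ℤ), Good fun _ : Unit => T := by
  classical
  let s : Finset ((_ : ZMod J) × ((W × ℤ) × ℤ)) := univ.sigma fun j => F j ×ˢ E j
  let g : ((_ : ZMod J) × ((W × ℤ) × ℤ)) → W × ℤ :=
    fun i => (i.2.1.1, N J * i.2.1.2 + i.1.val * L J + i.2.2)
  have mem_s : ∀ i, i ∈ s ↔ i.2.1 ∈ F i.1 ∧ i.2.2 ∈ E i.1 := by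
    rintro ⟨j, f, e⟩
    simp [s]
  have cast : ∀ (q : ℤ) (j : ZMod J), (((J : ℤ) * q + j.val : ℤ) : ZMod J) = j := by
    intro q j
    push_cast
    rw [ZMod.natCast_self, ZMod.natCast_zmod_val]
    ring
  have cov : ∀ (z q : ℤ) (j : ZMod J) (e : ℤ), e ∈ E j → z = N J * q + j.val * L J + e →
      z - ((J : ℤ) * q + j.val) * L J ∈ E (((J : ℤ) * q + j.val : ℤ) : ZMod J) := by
    intro z q j e he hz
    rw [cast]
    convert he using 1
    rw [hz]; unfold N; ring
  have place : ∀ (z q q' : ℤ) (j j' : ZMod J) (e e' : ℤ), e ∈ E j → e' ∈ E j' →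
      z = N J * q + j.val * L J + e → z = N J * q' + j'.val * L J + e' →
      q = q' ∧ j = j' ∧ e = e' := by
    intro z q q' j j' e e' he he' hz hz'
    have hm := (std_cover z).unique (cov z q j e he hz) (cov z q' j' e' he' hz')
    have hj : j = j' := by rw [← cast q j, hm, cast q' j']
    subst hj
    have hJ : (J : ℤ) ≠ 0 := by have := J_pos (J := J); omega
    have hq : q = q' := mul_left_cancel₀ hJ (by linear_combination hm)
    subst hq
    exact ⟨rfl, rfl, by linear_combination hz' - hz⟩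
  have hg : Set.InjOn g s := by
    rintro ⟨j, f, e⟩ hi ⟨j', f', e'⟩ hi' heq
    have hi := ((mem_s _).1 (Finset.mem_coe.1 hi)).2
    have hi' := ((mem_s _).1 (Finset.mem_coe.1 hi')).2
    simp only [g, Prod.mk.injEq] at heq
    obtain ⟨hq, rfl, rfl⟩ := place _ f.2 f'.2 j j' e e' hi hi' rfl heq.2
    have : f = f' := Prod.ext heq.1 hq
    subst this
    rfl
  obtain ⟨⟨A, hA⟩, hN⟩ := h
  refine ⟨s.image g, ⟨{x | N J ∣ x.2 ∧ (x.1, x.2 / N J) ∈ A}, fun _ => (tiles_image hg).2 ?_⟩,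
    fun B hB => ?_⟩
  · rintro ⟨x', z⟩
    obtain ⟨m, hm, -⟩ := std_cover (J := J) z
    set j : ZMod J := (m : ZMod J) with hj
    obtain ⟨q, hq⟩ : (J : ℤ) ∣ m - j.val := by
      rw [← ZMod.intCast_zmod_eq_zero_iff_dvd]
      push_cast
      rw [ZMod.natCast_zmod_val, hj, sub_self]
    set e := z - m * L J with he
    have hz : z = N J * q + j.val * L J + e := by
      rw [he]; unfold N; linear_combination (L J) * hq
    obtain ⟨f, ⟨hf, hfA⟩, hu⟩ := hA j (x', q)
    refine ⟨⟨j, f, e⟩, ⟨(mem_s _).2 ⟨hf, hm⟩, ?_⟩, ?_⟩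
    · have : z - (N J * f.2 + j.val * L J + e) = N J * (q - f.2) := by linear_combination hz
      simp only [g, Set.mem_ofPred_eq, Prod.mk_sub_mk, this]
      refine ⟨dvd_mul_right _ _, ?_⟩
      rw [Int.mul_ediv_cancel_left _ N_pos.ne']
      exact hfA
    · rintro ⟨j', f', e'⟩ ⟨hi, ⟨a, ha⟩, hi'⟩
      obtain ⟨hf', he'⟩ := (mem_s _).1 hi
      simp only [g, Prod.mk_sub_mk] at ha hi'
      rw [ha, Int.mul_ediv_cancel_left _ N_pos.ne'] at hi'
      obtain ⟨hqq, rfl, rfl⟩ :=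
        place z q (a + f'.2) j j' e e' hm he' hz (by linear_combination ha)
      have : f' = f := hu f' ⟨hf', by
        have : q - f'.2 = a := by omega
        rw [show ((x', q) - f') = (x' - f'.1, q - f'.2) from rfl, this]
        exact hi'⟩
      subst this
      rfl
  · rintro ⟨P, hP, hper⟩
    have hB := (tiles_image hg).1 (hB ())
    have line : ∀ x' : W, ∃ u, 0 ≤ u ∧ u < N J ∧
        (∀ j, ∀ f ∈ F j, ∀ a, (x' - f.1, a) ∈ B → N J ∣ a - u) ∧
        ∀ j y, ∃! f, f ∈ F j ∧ (x' - f.1, N J * (y - f.2) + u) ∈ B := by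
      intro x'
      let p := {i : (_ : ZMod J) × ((W × ℤ) × ℤ) // i.2.1 ∈ F i.1 ∧ (x' - i.2.1.1, i.2.2) ∈ B}
      have hcov : ∀ z, ∃! i : p, z - (i.1.2.2 + N J * i.1.2.1.2 + i.1.1.val * L J) ∈ E i.1.1 := by
        intro z
        obtain ⟨⟨j, f, e⟩, ⟨hi, hiB⟩, hu⟩ := hB (x', z)
        obtain ⟨hf, he⟩ := (mem_s _).1 hi
        refine ⟨⟨⟨j, f, z - (N J * f.2 + j.val * L J + e)⟩, hf, by simpa [g] using hiB⟩, ?_, ?_⟩
        · simp only
          convert he using 1
          ring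
        · rintro ⟨⟨j', f', a⟩, hf', haB⟩ hz
          simp only at hz hf' haB
          have := hu ⟨j', f', z - (a + N J * f'.2 + j'.val * L J)⟩ ⟨(mem_s _).2 ⟨hf', hz⟩, by
            simp only [g, Prod.mk_sub_mk]
            convert haB using 2
            ring⟩
          cases this
          exact Subtype.ext (Sigma.ext rfl (heq_of_eq (Prod.ext rfl (by simp only; ring))))
      obtain ⟨u, hu0, hu1, hall, hex⟩ := rigid hcov
      refine ⟨u, hu0, hu1, fun j f hf a ha => ?_, fun j y => ?_⟩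
      · obtain ⟨k, hk⟩ := hall ⟨⟨j, f, a⟩, hf, ha⟩
        simp only at hk
        exact ⟨k - f.2, by linear_combination hk⟩
      · obtain ⟨⟨⟨j', f, a⟩, hf, ha⟩, ⟨hjj, ht⟩, huniq⟩ := hex j y
        simp only at hjj ht hf ha
        subst hjj
        have hae : a = N J * (y - f.2) + u := by linear_combination ht
        subst hae
        refine ⟨f, ⟨hf, ha⟩, ?_⟩
        rintro f' ⟨hf', ha'⟩
        have := huniq ⟨⟨j', f', N J * (y - f'.2) + u⟩, hf', ha'⟩ ⟨rfl, by simp only; ring⟩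
        exact congrArg (fun i : p => i.1.2.1) this
    choose u hu0 hu1 hu2 hu3 using line
    refine hN {x | ∃ a, (x.1, a) ∈ B ∧ a / N J = x.2} (fun j x => ?_) ⟨P, hP, fun a v => ?_⟩
    · obtain ⟨f, ⟨hf, hfB⟩, hfu⟩ := hu3 x.1 j x.2
      refine ⟨f, ⟨hf, _, hfB, ?_⟩, ?_⟩
      · rw [add_comm, Int.add_mul_ediv_left _ _ N_pos.ne', Int.ediv_eq_zero_of_lt (hu0 _) (hu1 _)]
        simp
      · rintro f' ⟨hf', a, haB, hae⟩
        refine hfu f' ⟨hf', ?_⟩
        obtain ⟨k, hk⟩ := hu2 x.1 j f' hf' a haB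
        have hk' : a = u x.1 + N J * k := by linear_combination hk
        rw [hk', Int.add_mul_ediv_left _ _ N_pos.ne', Int.ediv_eq_zero_of_lt (hu0 _) (hu1 _)] at hae
        have : N J * (x.2 - f'.2) + u x.1 = a := by
          rw [hk']
          have : x.2 - f'.2 = k := by simpa using hae.symm
          rw [this]; ring
        rw [this]
        exact haB
    · have key : ∀ b : ℤ, (a.1 + P • v.1, b + N J * (P * v.2)) ∈ B ↔ (a.1, b) ∈ B := by
        intro b
        convert hper (a.1, b) (v.1, N J * v.2) using 2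
        simp only [Prod.smul_mk, Prod.mk_add_mk, nsmul_eq_mul]
        congr 1
        ring
      constructor
      · rintro ⟨b, hb, hbe⟩
        refine ⟨b - N J * (P * v.2), (key _).1 (by simpa using hb), ?_⟩
        rw [sub_eq_add_neg, ← mul_neg, Int.add_mul_ediv_left _ _ N_pos.ne', hbe]
        simp
      · rintro ⟨b, hb, hbe⟩
        refine ⟨b + N J * (P * v.2), (key _).2 hb, ?_⟩
        rw [Int.add_mul_ediv_left _ _ N_pos.ne', hbe]
        simp

end Stacking

section Lift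

variable {G : Type} [AddCommGroup G]

/-- The finite group is traded for two more coordinates. -/
theorem good_lift (π : ℤ × ℤ →+ G) (hπ : Function.Surjective π) {ι : Type} [Finite ι] [Nonempty ι]
    (F : ι → Finset ((ℤ × ℤ) × G)) (hS : ∃ A, ∀ i, Tiles A (F i))
    (hN : ∀ A, (∀ i, Tiles A (F i)) →
      ¬∃ P : ℕ, 0 < P ∧ ∀ a : (ℤ × ℤ) × G, ∀ h : ℤ × ℤ, (a.1 + P • h, a.2) ∈ A ↔ a ∈ A) :
    ∃ (κ : Type) (_ : Fintype κ) (_ : Nonempty κ) (F' : κ → Finset ((ℤ × ℤ) × (ℤ × ℤ))),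
      Good F' := by
  classical
  obtain ⟨A₀, hA₀⟩ := hS
  let i₀ : ι := Classical.arbitrary ι
  obtain ⟨f₀, hf₀⟩ := (hA₀ i₀).nonempty
  let s : G → ℤ × ℤ := Function.surjInv hπ
  have hs : ∀ g, π (s g) = g := Function.surjInv_eq hπ
  obtain ⟨K, hK⟩ : π.ker.FG :=
    (Submodule.fg_iff_addSubgroup_fg _).1
      (IsNoetherian.noetherian (AddSubgroup.toIntSubmodule π.ker))
  have hKker : ∀ k ∈ K, π k = 0 := fun k hk =>
    AddMonoidHom.mem_ker.1 (hK ▸ AddSubgroup.subset_closure hk)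
  let up : ℤ × ℤ → ((ℤ × ℤ) × G → (ℤ × ℤ) × (ℤ × ℤ)) :=
    fun k f => (f.1, s f.2 + if f = f₀ then k else 0)
  have hup : ∀ k, π k = 0 → ∀ f, π (up k f).2 = f.2 := by
    intro k hk f
    simp only [up, map_add, hs]
    split_ifs <;> simp [hk]
  have inj : ∀ k, π k = 0 → Function.Injective (up k) := fun k hk f f' e =>
    Prod.ext (congrArg Prod.fst e :) (by rw [← hup k hk f, ← hup k hk f', e])
  have hπ0 : π 0 = 0 := map_zero π
  have : Fintype ι := Fintype.ofFinite ι
  let F' : ι ⊕ {k // k ∈ K} → Finset ((ℤ × ℤ) × (ℤ × ℤ)) :=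
    Sum.elim (fun i => (F i).image (up 0)) (fun k => (F i₀).image (up k.1))
  refine ⟨_, inferInstance, inferInstance, F', ⟨{x | (x.1, π x.2) ∈ A₀}, ?_⟩, fun B hB => ?_⟩
  · have one : ∀ i k, π k = 0 → Tiles {x | (x.1, π x.2) ∈ A₀} ((F i).image (up k)) := by
      intro i k hk
      rw [tiles_image (inj k hk).injOn]
      intro x
      convert hA₀ i (x.1, π x.2) using 2 with f
      rw [Set.mem_ofPred_eq, Prod.snd_sub, map_sub, hup k hk]
      rfl
    rintro (i | ⟨k, hk⟩)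
    · exact one i 0 hπ0
    · exact one i₀ k (hKker k hk)
  · have step : ∀ k ∈ K, ∀ a, a + (0, k) ∈ B ↔ a ∈ B := by
      intro k hk a
      have h1 := (tiles_image (inj 0 hπ0).injOn).1 (hB (Sum.inl i₀))
      have h2 := (tiles_image (inj k (hKker k hk)).injOn).1 (hB (Sum.inr ⟨k, hk⟩))
      have e0 : up k f₀ = up 0 f₀ + (0, k) := by simp [up]
      have ene : ∀ f, f ≠ f₀ → up k f = up 0 f := by intro f hf; simp [up, hf]
      constructor
      · intro ha
        obtain ⟨f, ⟨hf, hfB⟩, -⟩ := h2 (a + (0, k) + up 0 f₀)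
        by_cases hff : f = f₀
        · subst hff
          rw [e0] at hfB
          simpa [add_sub_add_right_eq_sub, show a + (0, k) + up 0 f - (up 0 f + (0, k)) = a by abel]
            using hfB
        · exfalso
          rw [ene f hff] at hfB
          exact hff ((h1 _).unique ⟨hf, hfB⟩ ⟨hf₀, by simpa using ha⟩)
      · intro ha
        obtain ⟨f, ⟨hf, hfB⟩, -⟩ := h1 (a + up k f₀)
        by_cases hff : f = f₀
        · subst hff
          rwa [e0, show a + (up 0 f + (0, k)) - up 0 f = a + (0, k) by abel] at hfB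
        · exfalso
          rw [← ene f hff] at hfB
          exact hff ((h2 _).unique ⟨hf, hfB⟩ ⟨hf₀, by simpa using ha⟩)
    have inv : ∀ k, π k = 0 → ∀ a, a + (0, k) ∈ B ↔ a ∈ B := by
      intro k hk
      have : k ∈ AddSubgroup.closure (K : Set (ℤ × ℤ)) := by rw [hK]; exact hk
      clear hk
      induction this using AddSubgroup.closure_induction with
      | mem x hx => exact step x hx
      | zero => intro a; rw [Prod.mk_zero_zero, add_zero]
      | add x y _ _ ihx ihy =>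
        intro a
        rw [← ihx a, ← ihy (a + (0, x)), add_assoc,
          show ((0 : ℤ × ℤ), x) + (0, y) = (0, x + y) by simp]
      | neg x _ ih =>
        intro a
        rw [← ih (a + (0, -x)), add_assoc,
          show ((0 : ℤ × ℤ), -x) + (0, x) = 0 by simp, add_zero]
    have move : ∀ (w : ℤ × ℤ) (y y' : ℤ × ℤ), π y = π y' → ((w, y) ∈ B ↔ (w, y') ∈ B) := by
      intro w y y' e
      have := inv (y' - y) (by rw [map_sub, e, sub_self]) (w, y)
      simpa using this.symm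
    rintro ⟨P, hP, hper⟩
    refine hN {a | (a.1, s a.2) ∈ B} (fun i x => ?_) ⟨P, hP, fun a h => ?_⟩
    · convert (tiles_image (inj 0 hπ0).injOn).1 (hB (Sum.inl i)) (x.1, s x.2) using 2 with f
      refine and_congr_right fun _ => move (x.1 - f.1) (s (x - f).2) (s x.2 - (up 0 f).2) ?_
      rw [map_sub, hs, hs, hup 0 hπ0, Prod.snd_sub]
    · simpa using hper (a.1, s a.2) (h, 0)

end Lift

/-- `ℤ^n × ℤ` as `ℤ^(n+1)`. -/
def consEquiv (n : ℕ) : (Fin n → ℤ) × ℤ ≃+ (Fin (n + 1) → ℤ) where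
  toFun p := Fin.cons p.2 p.1
  invFun f := (Fin.tail f, f 0)
  left_inv p := by simp
  right_inv f := by simp
  map_add' p q := by
    ext i
    refine Fin.cases ?_ (fun j => ?_) i <;> simp

/-- `ℤ⁴` written as nested products. -/
def fourEquiv : ((ℤ × ℤ) × ℤ) × ℤ ≃+ (Fin 4 → ℤ) where
  toFun p := ![p.1.1.1, p.1.1.2, p.1.2, p.2]
  invFun f := (((f 0, f 1), f 2), f 3)
  left_inv p := by simp
  right_inv f := by ext i; fin_cases i <;> rfl
  map_add' p q := by ext i; fin_cases i <;> rfl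

theorem transfer : TransferSpec := by
  intro G _ _ π hπ ι _ _ F hS hN d hd
  classical
  obtain ⟨κ, _, _, F₁, h₁⟩ := good_lift π hπ F hS hN
  have h₂ := good_map (AddEquiv.prodAssoc.symm : (ℤ × ℤ) × (ℤ × ℤ) ≃+ ((ℤ × ℤ) × ℤ) × ℤ) h₁
  set F₂ := fun i => (F₁ i).image (AddEquiv.prodAssoc.symm :
    (ℤ × ℤ) × (ℤ × ℤ) ≃+ ((ℤ × ℤ) × ℤ) × ℤ) with hF₂
  have : NeZero (Fintype.card κ) := ⟨Fintype.card_ne_zero⟩
  let e : κ ≃ ZMod (Fintype.card κ) := Fintype.equivOfCardEq (by rw [ZMod.card])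
  have h₃ : Good (F₂ ∘ e.symm) := by
    obtain ⟨⟨A, hA⟩, hN'⟩ := h₂
    exact ⟨⟨A, fun j => hA _⟩, fun A hA' => hN' A fun i => by simpa using hA' (e i)⟩
  obtain ⟨T, hT⟩ := good_stack h₃
  have base : ∃ T : Finset (Fin 4 → ℤ), Good fun _ : Unit => T := ⟨_, good_map fourEquiv hT⟩
  have all : ∃ T : Finset (Fin d → ℤ), Good fun _ : Unit => T := by
    clear hT hN hS
    induction d, hd using Nat.le_induction with
    | base => exact base
    | succ n _ ih =>
      obtain ⟨T, hT⟩ := ih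
      exact ⟨_, good_map (consEquiv n) (good_pad (U := ℤ) hT)⟩
  obtain ⟨T, ⟨A, hA⟩, hT'⟩ := all
  refine ⟨T, ⟨A, hA ()⟩, ?_⟩
  rintro B hB ⟨H, hfin, hper⟩
  have := hfin
  refine hT' B (fun _ => hB) ⟨H.index, Nat.pos_of_ne_zero hfin.index_ne_zero, fun a v => ?_⟩
  exact hper a _ (AddSubgroup.nsmul_index_mem H v)

end Vale.Agent.P043.Z4
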